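import Vale.Agent.P011UE.Spec
import Vale.Agent.P011.H627.Odd.Small
import Vale.Agent.P011.H775.Odd.TopNb
import Vale.Agent.P011.W.HermEl

/-!
The neighbourhoods of one at finitely many places: the basic facts.
-/

open Module Filter Topology
open scoped commutatorElement

set_option linter.style.haveILetI false
set_option warn.classDefReducibility false

namespace Vale.Agent.P011UE

open Vale.Agent.P011.H738 (Place)
open Vale.Agent.P011.W (HasNrd Spl)
open Vale.Agent.P011.H775.Top
open Vale.Agent.P011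

variable {k : Type} [Field k]

/-- The absolute values of the places of `T`. -/
def aT (T : Finset (Place k)) (v : T) : AbsoluteValue k ℝ := v.1.abv

theorem aT_na (T : Finset (Place k)) (v : T) : IsNonarchimedean (aT T v) := v.1.nonarch

section ring

variable {A : Type} [Ring A] [Algebra k A] [FiniteDimensional k A]

theorem mem_nT {T : Finset (Place k)} {O : Set A} : O ∈ nT T A ↔ ∃ ε : ℝ, 0 < ε ∧
    ∀ x : A, (∀ v ∈ T, ∀ j, v.abv ((finBasis k A).repr (x - 1) j) < ε) → x ∈ O := Iff.rfl

theorem nT_mono {T T' : Finset (Place k)} (h : T ⊆ T') : nT T' A ≤ nT T A :=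
  fun _ ⟨ε, hε, hO⟩ => ⟨ε, hε, fun x hx => hO x fun v hv => hx v (h hv)⟩

theorem nU_mono {T T' : Finset (Place k)} (h : T ⊆ T') : nU T' A ≤ nU T A :=
  comap_mono (nT_mono h)

theorem nT_empty : nT (∅ : Finset (Place k)) A = ⊤ :=
  top_unique fun _ ⟨_, _, hO⟩ => mem_top.2 (Set.eq_univ_of_forall fun x => hO x (by simp))

theorem nU_empty : nU (∅ : Finset (Place k)) A = ⊤ := by rw [nU, nT_empty, comap_top]

theorem nT_union [DecidableEq (Place k)] (T T' : Finset (Place k)) :
    nT (T ∪ T') A = nT T A ⊓ nT T' A := by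
  refine le_antisymm (le_inf (nT_mono Finset.subset_union_left)
    (nT_mono Finset.subset_union_right)) fun O ⟨ε, hε, hO⟩ => ?_
  refine mem_inf_of_inter
    (s := {x | ∀ v ∈ T, ∀ j, v.abv ((finBasis k A).repr (x - 1) j) < ε})
    (t := {x | ∀ v ∈ T', ∀ j, v.abv ((finBasis k A).repr (x - 1) j) < ε})
    ⟨ε, hε, fun _ h => h⟩ ⟨ε, hε, fun _ h => h⟩ fun x hx => hO x fun v hv => ?_
  exact (Finset.mem_union.1 hv).elim (hx.1 v) (hx.2 v)

theorem nU_union [DecidableEq (Place k)] (T T' : Finset (Place k)) :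
    nU (T ∪ T') A = nU T A ⊓ nU T' A := by rw [nU, nT_union, comap_inf]; rfl

theorem pure_le_nT (T : Finset (Place k)) : pure (1 : A) ≤ nT T A :=
  fun _ ⟨_, hε, hO⟩ => hO 1 fun v _ j => by simpa using hε

theorem pure_le_nU (T : Finset (Place k)) : pure (1 : Aˣ) ≤ nU T A :=
  fun _ ⟨_, h1, h2⟩ => h2 (pure_le_nT T h1)

theorem tendsto_val (T : Finset (Place k)) : Tendsto Units.val (nU T A) (nT T A) := tendsto_comap

end ring

variable {D : Type} [DivisionRing D] [Algebra k D] [FiniteDimensional k D]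

/-- The topology of the algebra given by the places of `T`. -/
noncomputable def tT (T : Finset (Place k)) [Nonempty T] (D : Type) [DivisionRing D] [Algebra k D]
    [FiniteDimensional k D] : TopologicalSpace D := topD (finBasis k D) (aT T)

theorem nT_eq (T : Finset (Place k)) [Nonempty T] : nT T D = @nhds D (tT T D) 1 := by
  ext O
  rw [tT, H775.Top.mem_nhds_iff, mem_nT]
  exact exists_congr fun ε => and_congr_right fun _ => forall_congr' fun x =>
    imp_congr_left ⟨fun h v => h v.1 v.2, fun h v hv => h ⟨v, hv⟩⟩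

theorem nT_eq_nb (T : Finset (Place k)) [Nonempty T] :
    nT T D = (letI := topk (aT T); H677.GW.nb k D) := by
  rw [nT_eq, nb_eq (finBasis k D) (aT T)]
  rfl

theorem nT_base (T : Finset (Place k)) [Nonempty T] : nT T k = @nhds k (topk (aT T)) 1 := by
  rw [nT_eq, tT, topD_eq (finBasis k k) (aT T) (Basis.singleton Unit k)]
  rfl

theorem mem_nT_base {T : Finset (Place k)} {O : Set k} :
    O ∈ nT T k ↔ ∃ ε : ℝ, 0 < ε ∧ ∀ x : k, (∀ v ∈ T, v.abv (x - 1) < ε) → x ∈ O := by
  rcases T.eq_empty_or_nonempty with rfl | hT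
  · simp only [nT_empty, mem_top, Set.eq_univ_iff_forall]
    exact ⟨fun h => ⟨1, one_pos, fun x _ => h x⟩, fun ⟨_, _, h⟩ x => h x (by simp)⟩
  · haveI := hT.to_subtype
    rw [nT_base, topk_mem_nhds_iff]
    exact exists_congr fun ε => and_congr_right fun _ => forall_congr' fun x =>
      imp_congr_left ⟨fun h v hv => h ⟨v, hv⟩, fun h v => h v.1 v.2⟩

theorem tT_ring (T : Finset (Place k)) [Nonempty T] : @IsTopologicalDivisionRing D _ (tT T D) :=
  isTopologicalDivisionRing _ _

theorem tT_t2 (T : Finset (Place k)) [Nonempty T] : @T2Space D (tT T D) := t2 _ _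

/-- It is enough to consider nonempty sets of places. -/
theorem tendsto_of {X : Type} {l : Filter X} {f : X → D} {T : Finset (Place k)}
    (h : ∀ [Nonempty T], Tendsto f l (nT T D)) : Tendsto f l (nT T D) := by
  rcases T.eq_empty_or_nonempty with rfl | hT
  · rw [nT_empty]
    exact tendsto_top
  · exact @h hT.to_subtype

section tend

variable {X : Type} {l : Filter X} {T : Finset (Place k)}

theorem tendsto_lin {D' : Type} [DivisionRing D'] [Algebra k D'] [FiniteDimensional k D']
    (φ : D →ₗ[k] D') (h : φ 1 = 1) : Tendsto φ (nT T D) (nT T D') := tendsto_of <| by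
  intro _
  rw [nT_eq, nT_eq]
  have := @Continuous.tendsto _ _ (tT T D) (tT T D') _ (continuous_lin _ _ (aT T) φ) 1
  rwa [h] at this

theorem tendsto_alg : Tendsto (algebraMap k D) (nT T k) (nT T D) :=
  tendsto_lin (Algebra.linearMap k D) (map_one (algebraMap k D))

theorem nT_mul {f g : X → D} (hf : Tendsto f l (nT T D)) (hg : Tendsto g l (nT T D)) :
    Tendsto (fun x => f x * g x) l (nT T D) := tendsto_of <| by
  intro _
  rw [nT_eq] at *
  letI := tT T D
  haveI := tT_ring (D := D) T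
  simpa using hf.mul hg

theorem nT_inv {f : X → D} (hf : Tendsto f l (nT T D)) :
    Tendsto (fun x => (f x)⁻¹) l (nT T D) := tendsto_of <| by
  intro _
  rw [nT_eq] at *
  letI := tT T D
  haveI := tT_ring (D := D) T
  simpa using hf.inv₀ one_ne_zero

theorem nT_pow {f : X → D} (hf : Tendsto f l (nT T D)) (m : ℕ) :
    Tendsto (fun x => f x ^ m) l (nT T D) := tendsto_of <| by
  intro _
  rw [nT_eq] at *
  letI := tT T D
  haveI := tT_ring (D := D) T
  simpa using hf.pow m

theorem nU_iff {f : X → Dˣ} : Tendsto f l (nU T D) ↔ Tendsto (fun x => (f x : D)) l (nT T D) :=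
  tendsto_comap_iff

theorem nU_mul {f g : X → Dˣ} (hf : Tendsto f l (nU T D)) (hg : Tendsto g l (nU T D)) :
    Tendsto (fun x => f x * g x) l (nU T D) := nU_iff.2 (nT_mul (nU_iff.1 hf) (nU_iff.1 hg))

theorem nU_inv {f : X → Dˣ} (hf : Tendsto f l (nU T D)) :
    Tendsto (fun x => (f x)⁻¹) l (nU T D) :=
  nU_iff.2 (by simpa using nT_inv (nU_iff.1 hf))

theorem nU_conj (g : Dˣ) : Tendsto (fun u => g * u * g⁻¹) (nU T D) (nU T D) :=
  nU_iff.2 ((tendsto_lin ((LinearMap.mulRight k ((g⁻¹ : Dˣ) : D)).comp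
    (LinearMap.mulLeft k (g : D))) (by simp)).comp (tendsto_val T))

theorem ev_ne (hT : T.Nonempty) {c : D} (hc : c ≠ 1) : ∀ᶠ x in nT T D, x ≠ c := by
  haveI := hT.to_subtype
  rw [nT_eq]
  letI := tT T D
  haveI := tT_t2 (D := D) T
  exact eventually_ne_nhds hc.symm

/-- Small open subgroups. -/
theorem exists_sub {O : Set Dˣ} (hO : O ∈ nU T D) :
    ∃ U : Subgroup Dˣ, (U : Set Dˣ) ∈ nU T D ∧ ∀ u ∈ U, u ∈ O := by
  rcases T.eq_empty_or_nonempty with rfl | hT
  · rw [nU_empty] at *
    exact ⟨⊤, by simp, fun u _ => mem_top.1 hO ▸ Set.mem_univ u⟩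
  · haveI := hT.to_subtype
    obtain ⟨O', h1, h2⟩ := hO
    rw [nT_eq] at h1
    obtain ⟨W, h3, O'', h4, h5⟩ := H627.Odd.exists_openSub _ _ (aT_na T) h1
    exact ⟨W, ⟨O'', (nT_eq (D := D) T).symm ▸ h4, h5⟩, fun u hu => h2 (h3 u hu)⟩

end tend

namespace Dv

variable {n : ℕ} {N : D →* k} (h : Dv k D n N)
include h

omit [FiniteDimensional k D] in
theorem infinite : Infinite k := h.glob.elim (fun _ => .of_injective _ Nat.cast_injective)
  fun ⟨F, _, _, _, _⟩ => .of_injective _
    ((algebraMap (RatFunc F) k).injective.comp (RatFunc.algebraMap_injective F))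

theorem split : ∃ f : D →ₐ[k] Matrix (Fin n) (Fin n) (AlgebraicClosure k),
    ∀ x, algebraMap k _ (N x) = (f x).det :=
  haveI := h.central
  (P011S.exists_split (K := k) (D := D) h.rank (AlgebraicClosure k)).elim fun f =>
    ⟨f, fun x => (h.nrd x _ f).symm⟩

theorem alg (c : k) : N (algebraMap k D c) = c ^ n :=
  haveI := h.central
  (h.nrd _).unique h.rank (W.HasNrd.algMap c)

omit h [Algebra k D] [FiniteDimensional k D] in
theorem ne_zero (u : Dˣ) : N u ≠ 0 := (Units.map N u).ne_zero

theorem pos (u : Dˣ) (φ : k →+* ℝ) : Spl D n φ ∨ 0 < φ (N u) := by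
  haveI := h.central
  haveI : CharZero k := φ.charZero
  exact or_iff_not_imp_left.2 fun e => W.nrd_pos_of h.rank φ e u.ne_zero (h.nrd _)

theorem tendsto (T : Finset (Place k)) : Tendsto N (nT T D) (nT T k) := tendsto_of <| by
  intro _
  obtain ⟨f, hf⟩ := h.split
  obtain ⟨π, hπ⟩ := (Algebra.linearMap k D).exists_leftInverse_of_injective
    (LinearMap.ker_eq_bot.2 (algebraMap k D).injective)
  have h1 : ∀ c, π (algebraMap k D c) = c := LinearMap.congr_fun hπ
  letI := topD (finBasis k D) (aT T)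
  haveI := isTopologicalRing (finBasis k D) (aT T)
  have h2 := (H465.nrd_cont (fun Λ => continuous_lin (finBasis k D) (finBasis k D) (aT T)
    (Algebra.linearMap k D ∘ₗ Λ)) f hf).tendsto 1
  rw [map_one, map_one, show 𝓝 (1 : D) = nT T D from (nT_eq T).symm] at h2
  exact ((tendsto_lin π (by simpa using h1 1)).comp h2).congr fun x => h1 _

end Dv

instance {N : D →* k} : (G1 N).Normal := MonoidHom.normal_ker _

omit [Algebra k D] [FiniteDimensional k D] in
theorem comm_mem (N : D →* k) (a b : Dˣ) : ⁅a, b⁆ ∈ G1 N := by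
  rw [G1, MonoidHom.mem_ker, map_commutatorElement, commutatorElement_eq_one_iff_mul_comm, mul_comm]

end Vale.Agent.P011UE
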