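import Vale.Agent.P011L.Defs
import Vale.Agent.P011.H738.FDefs
import Vale.Agent.P011.W.Defs
import Vale.Agent.P011.H925.Full.DefsA

/-!
The Margulis-Platonov conjecture for `SL_1(D)`: the definitions and the statements of the steps.
-/

open Module Filter Polynomial TensorProduct
open scoped commutatorElement

namespace Vale.Agent.P011UE

open Vale.Agent.P011L (Glob)
open Vale.Agent.P011.H738 (Place)
open Vale.Agent.P011.W (HasNrd Spl)
open Vale.Agent.P011.H925.Full (Kv)

/-- `D` is a central division algebra of degree `n ≥ 2` over the global field `k`, with the reduced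
norm `N`. -/
structure Dv (k D : Type) [Field k] [DivisionRing D] [Algebra k D] (n : ℕ) (N : D →* k) :
    Prop where
  glob : Glob k
  central : Algebra.IsCentral k D
  le : 2 ≤ n
  rank : finrank k D = n ^ 2
  nrd : ∀ x, HasNrd k n x (N x)

section

variable {k : Type} [Field k]

/-- The neighbourhoods of one for the places of `T`. -/
def nT (T : Finset (Place k)) (A : Type) [Ring A] [Algebra k A] [FiniteDimensional k A] :
    Filter A where
  sets := {O | ∃ ε : ℝ, 0 < ε ∧
    ∀ x : A, (∀ v ∈ T, ∀ j, v.abv ((finBasis k A).repr (x - 1) j) < ε) → x ∈ O}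
  univ_sets := ⟨1, one_pos, fun _ _ => Set.mem_univ _⟩
  sets_of_superset := fun ⟨ε, hε, h⟩ hxy => ⟨ε, hε, fun x hx => hxy (h x hx)⟩
  inter_sets := fun ⟨ε, hε, h⟩ ⟨ε', hε', h'⟩ => ⟨min ε ε', lt_min hε hε', fun x hx =>
    ⟨h x fun v hv j => (hx v hv j).trans_le (min_le_left _ _),
      h' x fun v hv j => (hx v hv j).trans_le (min_le_right _ _)⟩⟩

/-- The same for the units. -/
def nU (T : Finset (Place k)) (A : Type) [Ring A] [Algebra k A] [FiniteDimensional k A] :
    Filter Aˣ := (nT T A).comap Units.val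

variable {D : Type} [DivisionRing D] [Algebra k D]

/-- The group `SL_1(D)`. -/
def G1 (N : D →* k) : Subgroup Dˣ := (Units.map N).ker

omit [Algebra k D] in
theorem mem_G1 {N : D →* k} {u : Dˣ} : u ∈ G1 N ↔ N u = 1 := Units.ext_iff

/-- A normal noncentral subgroup of `SL_1(D)`. -/
structure NN (N : D →* k) (H : Subgroup Dˣ) : Prop where
  le : H ≤ G1 N
  conj : ∀ g ∈ G1 N, ∀ x ∈ H, g * x * g⁻¹ ∈ H
  nc : ∃ x ∈ H, ∃ y : D, (x : D) * y ≠ y * x

/-- The subgroup contains the elements of `SL_1(D)` which are close to one at `T`. -/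
def Opn [FiniteDimensional k D] (N : D →* k) (T : Finset (Place k)) (H : Subgroup Dˣ) : Prop :=
  ∀ᶠ u in nU T D, u ∈ G1 N → u ∈ H

variable (D) in
/-- The algebra remains a division algebra at the place. -/
def Dp (v : Place k) : Prop := ∀ x : v.comp ⊗[k] D, x ≠ 0 → IsUnit x

variable (D) in
/-- The algebra splits at the place. -/
def Sp (n : ℕ) (v : Place k) : Prop := Spl D n (algebraMap k v.comp)

/-- The element generates a separable maximal subfield which splits completely at the places of `j`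
and has a real place above every real place where `D` splits. -/
structure Reg (n : ℕ) (j : Finset (Place k)) (y : D) : Prop where
  deg : (minpoly k y).natDegree = n
  sep : (minpoly k y).Separable
  spl : ∀ v ∈ j, ((minpoly k y).map (algebraMap k v.comp)).Splits
  real : ∀ φ : k →+* ℝ, Spl D n φ → ∃ r : ℝ, ((minpoly k y).map φ).eval r = 0

/-- The subgroup contains the elements of the field `k(y)` which are in `O`. -/
def Fld (k : Type) [Field k] [Algebra k D] (y : D) (O : Set Dˣ) (S : Subgroup Dˣ) : Prop :=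
  ∀ u ∈ O, (u : D) ∈ Algebra.adjoin k {y} → u ∈ S

end

/-- A statement for all the division algebras. -/
def All (P : ∀ (k D : Type) [Field k] [DivisionRing D] [Algebra k D] [FiniteDimensional k D],
    ℕ → (D →* k) → Prop) : Prop :=
  ∀ (k D : Type) [Field k] [DivisionRing D] [Algebra k D] [FiniteDimensional k D] (n : ℕ)
    (N : D →* k), Dv k D n N → P k D n N

/-- Finitely many places do not split, and there are infinitely many places. -/
def RAM : Prop := All fun k D _ _ _ _ n _ =>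
  {v : Place k | ¬Sp D n v}.Finite ∧ Infinite (Place k)

/-- Noncentral normal subgroups have finite index. -/
def NST : Prop := All fun _ D _ _ _ _ _ N =>
  ∀ H : Subgroup Dˣ, NN N H → H.relIndex (G1 N) ≠ 0

/-- Approximation of the commutators at a place where `D` is no division algebra. -/
def DENC : Prop := All fun k D _ _ _ _ _ N =>
  ∀ H : Subgroup Dˣ, NN N H → ∀ (T : Finset (Place k)) (v : Place k), v ∉ T → ¬Dp D v →
    ∀ (a b : Dˣ), ∀ O ∈ nU T D, ∀ O' ∈ nU {v} D, ∃ q ∈ H, q ∈ O ∧ q⁻¹ * ⁅a, b⁆ ∈ O'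

/-- Approximation at a place where `D` splits. -/
def DENS : Prop := All fun k D _ _ _ _ n N =>
  ∀ H : Subgroup Dˣ, NN N H → ∀ (T : Finset (Place k)) (v : Place k), v ∉ T → Sp D n v →
    ∀ g ∈ G1 N, ∀ O ∈ nU T D, ∀ O' ∈ nU {v} D, ∃ q ∈ H, q ∈ O ∧ q⁻¹ * g ∈ O'

/-- Split elements in the cosets. -/
def SPLQ : Prop := All fun k D _ _ _ _ n N =>
  ∀ H : Subgroup Dˣ, NN N H → ∀ T j : Finset (Place k), Disjoint j T → (∀ v ∈ j, Sp D n v) →
    ∀ (x : Dˣ), ∀ O ∈ nU T D, ∃ q ∈ H, q ∈ O ∧ Reg n j ((x * q : Dˣ) : D)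

/-- The norms from many subfields generate a neighbourhood, which depends on one of them only. -/
def ATL : Prop := All fun k D _ _ _ _ n N =>
  ∀ T : Finset (Place k), T.Nonempty → ∀ y₀ : D, Reg n (∅ : Finset (Place k)) y₀ → ∀ O₀ ∈ nU T D,
    ∃ V ∈ nT T k, ∀ S : Subgroup Dˣ, Fld k y₀ O₀ S →
      (∀ j : Finset (Place k), Disjoint j T → ∃ y : D, Reg n j y ∧ ∃ O ∈ nU T D, Fld k y O S) →
      ∀ x ∈ V, x ≠ 0 → (∀ φ : k →+* ℝ, Spl D n φ ∨ 0 < φ x) → ∃ u ∈ S, N u = x

/-- Reduced norms near one. -/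
def NSUR : Prop := All fun k D _ _ _ _ n N =>
  ∀ T : Finset (Place k), T.Nonempty → (∀ v ∉ T, Sp D n v) → ∀ O ∈ nU T D, ∀ᶠ x in nT T k,
    x ≠ 0 → (∀ φ : k →+* ℝ, Spl D n φ ∨ 0 < φ x) → ∃ u ∈ O, N u = x

/-- Homomorphisms of finite exponent near one vanish on the elements of reduced norm one. -/
def RWK : Prop := All fun k D _ _ _ _ _ N =>
  ∀ T : Finset (Place k), T.Nonempty → ∀ (E : Type) [AddCommGroup E] (e : ℕ), e ≠ 0 →
    (∀ x : E, e • x = 0) → ∀ F : D → E,
      (∀ᶠ p in nT T D ×ˢ nT T D, F (p.1 * p.2) = F p.1 + F p.2) →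
      ∀ᶠ x in nT T D, N x = 1 → F x = 0

/-- The finite quotients of the adjoint group are solvable. -/
def RSS : Prop := All fun k D _ _ _ _ _ _ =>
  ∀ (Q : Type) [Group Q] [Finite Q] (ψ : Dˣ →* Q), Function.Surjective ψ →
    (∀ u : Dˣ, (u : D) ∈ Set.range (algebraMap k D) → ψ u = 1) → Group.IsSolvable Q

/-- A subgroup which contains the commutators near one is open. -/
def CORE : Prop := All fun k D _ _ _ _ _ N =>
  ∀ T : Finset (Place k), T.Nonempty → ∀ Q : Subgroup Dˣ, Q.Normal → Q ≤ G1 N →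
    Q.relIndex (G1 N) ≠ 0 → (∀ᶠ p in nU T D ×ˢ nU T D, ⁅p.1, p.2⁆ ∈ Q) → Opn N T Q

/-- The solvable step. -/
def STEP : Prop := All fun k D _ _ _ _ n N =>
  ∀ T : Finset (Place k), T.Nonempty → (∀ v ∉ T, Sp D n v) → ∀ Q H : Subgroup Dˣ, Q.Normal →
    H.Normal → NN N Q → Q.relIndex (G1 N) ≠ 0 → H ≤ G1 N → ⁅H, H⁆ ≤ Q → Opn N T H → Opn N T Q

/-- The noncentral normal subgroups are open for the places where `D` is a division algebra. -/
def FI : Prop := All fun k D _ _ _ _ _ N =>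
  ∀ T : Finset (Place k), (∀ v ∉ T, ¬Dp D v) → ∀ H : Subgroup Dˣ, NN N H → Opn N T H

section

variable (k D : Type) [Field k] [Ring D] [Algebra k D]

/-- The nonarchimedean places where `D` remains a division algebra. -/
structure AD where
  abv : AbsoluteValue k ℝ
  nonarch : ∀ x y, abv (x + y) ≤ max (abv x) (abv y)
  normalized : ∃ S : Finset k, (∀ s ∈ S, abv s ≤ 1) ∧
    (∀ x, abv x ≤ 1 → ∃! s, s ∈ S ∧ abv (x - s) < 1) ∧ (∃ x, abv x = S.card) ∧
    ∀ x, x ≠ 0 → ∃ m : ℤ, abv x = S.card ^ m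
  div : ∀ x : Kv abv ⊗[k] D, x ≠ 0 → IsUnit x

/-- The group of the elements of reduced norm one of `L ⊗ D`. -/
def GP (L : Type) [CommRing L] [Algebra k L] (n : ℕ) : Type :=
  Subgroup.closure {x : (L ⊗[k] D)ˣ | ∀ (Ω : Type) [Field Ω] [Algebra L Ω]
    (F : L ⊗[k] D →ₐ[L] Matrix (Fin n) (Fin n) Ω), (F x).det = 1}

variable (L : Type) [CommRing L] [Algebra k L]

noncomputable instance (n : ℕ) : Group (GP k D L n) := Subgroup.toGroup _

noncomputable instance (n : ℕ) [TopologicalSpace L] : TopologicalSpace (GP k D L n) :=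
  .induced (fun x => x.1.1) (moduleTopology L (L ⊗[k] D))

end

/-- **The conjecture for `SL_1(D)`.** -/
def MPD : Prop := All fun k D _ _ _ _ n N =>
  ∃ δ : G1 N →* ∀ v : AD k D, GP k D (Kv v.abv) n, (∀ g v, (δ g v).1.1 = 1 ⊗ₜ (g.1 : D)) ∧
    ∀ H : Subgroup (G1 N), H.Normal → ¬H ≤ Subgroup.center (G1 N) →
      ∃ W : Subgroup (∀ v : AD k D, GP k D (Kv v.abv) n),
        IsOpen (W : Set (∀ v : AD k D, GP k D (Kv v.abv) n)) ∧ W.Normal ∧ H = W.comap δ

end Vale.Agent.P011UE
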