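import Vale.Agent.P011UN.Opn
import Vale.Agent.P011UW8.Fin

/-!
The open compactly generated subgroup without characters.
-/

set_option linter.all false

open Matrix Filter Topology Polynomial
open scoped Matrix.Norms.Operator

namespace Vale.Agent.P011UE

open Vale.Agent.P011ND Vale.Agent.P011UT4 Vale.Agent.P011UN

theorem conn {G X : Type*} [Group G] [TopologicalSpace G] [IsTopologicalGroup G]
    [TopologicalSpace X] {T S : Subgroup G} (h : ∀ᶠ g in 𝓝 1, g ∈ T → g ∈ S) {I : Set X}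
    (hI : IsPreconnected I) {f : X → G} (hf : ∀ t ∈ I, ContinuousAt f t ∧ f t ∈ T) {a b : X}
    (ha : a ∈ I) (hb : b ∈ I) : (f a)⁻¹ * f b ∈ S := by
  refine hI.induction₂ (fun a b => (f a)⁻¹ * f b ∈ S) (fun x hx => ?_)
    (fun x y z _ _ _ p q => by simpa [mul_assoc] using mul_mem p q)
    (fun x y _ _ p => by simpa using inv_mem p) ha hb
  have : Tendsto (fun y => (f x)⁻¹ * f y) (𝓝 x) (𝓝 1) :=
    inv_mul_cancel (f x) ▸ (hf x hx).1.tendsto.const_mul _
  filter_upwards [mem_nhdsWithin_of_mem_nhds (this.eventually h), self_mem_nhdsWithin] with y p hy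
  exact p (mul_mem (inv_mem (hf x hx).2) (hf y hy).2)

section one

variable {K n : Type} [NontriviallyNormedField K] [CompleteSpace K] [Fintype n] [DecidableEq n]
  {x : K → (Matrix n n K)ˣ} {Q : Matrix n n K[X]} (x1 : ∀ u, (x u).1 = Q.map (eval u))
  (x2 : ∀ u u', x (u + u') = x u * x u')
include x2

theorem ox_zero : x 0 = 1 := left_eq_mul.1 ((congrArg x (add_zero 0).symm).trans (x2 0 0))

include x1

theorem ox_cont : Continuous x := by
  have cv : Continuous fun u => (x u).1 := by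
    simp only [x1]
    exact continuous_iff_continuousAt.2 fun u => (poly_deriv _ u).hasDerivAt.continuousAt
  exact Units.continuous_iff.2 ⟨cv, (cv.comp continuous_neg).congr fun u => congrArg Units.val
    (eq_inv_of_mul_eq_one_left (by rw [← x2, neg_add_cancel, ox_zero x2]))⟩

theorem ox_one [CharZero K] (h : Q.map (fun q => q.derivative.eval 0) = 0) (u : K) : x u = 1 := by
  have a : ∀ u, Q.map (fun q => q.derivative.eval u) = 0 := fun u => by
    have b := ((add_zero u).symm ▸ (poly_deriv Q u).hasDerivAt :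
      HasDerivAt (fun t => Q.map (eval t)) _ (u + 0)).comp_const_add
    have c := (poly_deriv Q 0).hasDerivAt.const_mul (x u).1
    simp only [← x1, x2, Units.val_mul, h, mul_zero, add_zero] at b c
    exact b.unique c
  rw [← ox_zero x2]
  ext i j
  rw [x1, x1, map_apply, map_apply, eq_C_of_derivative_eq_zero (p := Q i j)
    (Polynomial.funext fun u => by simpa using congrFun (congrFun (a u) i) j), eval_C, eval_C]

end one

variable {k n ι Γ : Type} [Field k] [Fintype n] [DecidableEq n] [Fintype ι] [DecidableEq ι]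
  [Group Γ] {E : ι → Type} [∀ i, NontriviallyNormedField (E i)] [∀ i, ProperSpace (E i)]
  [∀ i, Algebra k (E i)] {O : Subring k} {v : ι} (M : n → Matrix n n k)
  {r : Γ →* Matrix n n k} (H : Subgroup (Matrix n n (E v))ˣ)

/-- Open subgroups which contain `H`. -/
def Fam (S : Subgroup (GG E n)) : Prop :=
  (∀ᶠ g in 𝓝 1, g ∈ St E (dt M) → g ∈ S) ∧ ∀ u ∈ H, Pi.mulSingle v u ∈ S

/-- The smallest open subgroup which contains `H`. -/
def Mm : Subgroup (GG E n) := (⨅ S : {S // Fam M H S}, S.1) ⊓ H.comap (Pi.evalMonoidHom _ v)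

variable {M H} {x0 : Γ} {d : k[X]} {P : Matrix n n k[X]}

theorem mem_Mm {g : GG E n} : g ∈ Mm M H ↔ (∀ S, Fam M H S → g ∈ S) ∧ g v ∈ H := by
  simp [Mm, Subgroup.mem_iInf]

theorem Mm_le {S : Subgroup (GG E n)} (h : Fam M H S) : Mm M H ≤ S :=
  fun _ hg => (mem_Mm.1 hg).1 S h

theorem Mm_single {u} (hu : u ∈ H) : Pi.mulSingle v u ∈ Mm M H :=
  mem_Mm.2 ⟨fun _ h => h.2 u hu, by simpa using hu⟩

variable (h : An E O v M r H x0)
include h

theorem Mm_St : Mm M H ≤ St E (dt M) := Mm_le ⟨.of_forall fun _ => id, fun u hu i => by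
  rcases eq_or_ne i v with rfl | e
  · simpa using h.hst u hu
  · simpa [e] using Dt.Stab.one⟩

theorem pp_St (γ : Γ) : pp E r γ ∈ St E (dt M) := fun i => (h.stab γ).map _

theorem Mm_conj (γ : Γ) : ∀ g ∈ Mm M H, pp E r γ * g * (pp E r γ)⁻¹ ∈ Mm M H := fun g hg => by
  have c : ∀ u ∈ H, pp E r γ v * u * (pp E r γ v)⁻¹ ∈ H := fun u hu =>
    mul_mem (mul_mem (h.rat γ) hu) (inv_mem (h.rat γ))
  refine mem_Mm.2 ⟨fun S hS => Mm_le (S := S.comap (MulAut.conj (pp E r γ)).toMonoidHom)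
    ⟨?_, fun u hu => ?_⟩ hg, c _ (mem_Mm.1 hg).2⟩
  · filter_upwards [((by fun_prop : Continuous fun g => pp E r γ * g * (pp E r γ)⁻¹).tendsto' 1 1
      (by simp)).eventually hS.1] with g a b
    exact a (mul_mem (mul_mem (pp_St h γ) b) (inv_mem (pp_St h γ)))
  · exact (congrArg (· ∈ S) (conj_single (pp E r γ) v u)).mpr (hS.2 _ (c u hu))

theorem Mm_path (hc : Crv r d P) {i : ι} (hi : i ≠ v) {I : Set (E i)} (hI : IsPreconnected I)
    (h0 : 0 ∈ I) (hd : ∀ t ∈ I, aeval t d ≠ 0) {t : E i} (ht : t ∈ I) :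
    Pi.mulSingle i (toU (cr (E i) d P t)) ∈ Mm M H := by
  refine mem_Mm.2 ⟨fun S hS => ?_, by simp [hi.symm]⟩
  have := conn hS.1 hI (f := fun t => Pi.mulSingle i (toU (cr (E i) d P t))) (fun t ht =>
    ⟨(continuous_mulSingle i).continuousAt.comp (cru_cont h hc (hd t ht)),
      closure_le_St E r h.stab (cr_single h hc (hd t ht))⟩) h0 ht
  rwa [(cr_zero hc).2, show toU (1 : Matrix n n (E i)) = 1 from Units.ext (toU_val isUnit_one),
    Pi.mulSingle_one, inv_one, one_mul] at this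

theorem Mm_open [CharZero k] (h0 : ∃ γ, r γ ≠ 1) :
    ∀ᶠ g in 𝓝 1, g ∈ St E (dt M) → g ∈ Mm M H := by
  refine nbhd (Mm_St h) fun i X hX => ?_
  obtain ⟨c, Y, c1, c2, c3, c4⟩ : ∃ (c : E i → Matrix n n (E i)) (Y : _), HasStrictDerivAt c Y 0 ∧
      c 0 = 1 ∧ (∀ᶠ t in 𝓝 0, c t ∈ loc (Mm M H) i) ∧ Y ≠ 0 := by
    rcases eq_or_ne i v with rfl | e
    · obtain ⟨A, -, x, Q, t, l, x1, x2, ⟨a, u, x3⟩, x4, -⟩ := h.gen
      have := charZero_of_injective_algebraMap (algebraMap k (E i)).injective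
      exact ⟨_, _, poly_deriv (Q a) 0, by rw [← x1, ox_zero (x2 a), Units.val_one],
        .of_forall fun t => ⟨_, Mm_single (x4 ▸ Subgroup.subset_closure
          (Set.mem_iUnion.2 ⟨a, t, rfl⟩)), x1 a t⟩, fun e => x3 (ox_one (x1 a) (x2 a) e u)⟩
    · obtain ⟨d, P, hc, hne⟩ := h.crv
      obtain ⟨z1, z2⟩ := cr_zero (K := E i) hc
      obtain ⟨ε, e0, e1⟩ := Metric.nhds_basis_closedBall.eventually_iff.1
        (d.continuous_aeval.continuousAt.eventually_ne (z1.trans_ne one_ne_zero))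
      refine ⟨_, _, cr_deriv hc, z2, ?_, fun e => hne (sub_eq_zero.1 (Matrix.map_injective
        (algebraMap k (E i)).injective (e.trans (map_zero (up (E i))).symm)))⟩
      filter_upwards [Metric.closedBall_mem_nhds 0 e0] with t ht
      exact ⟨_, Mm_path h hc e (h.con i e ε) (Metric.mem_closedBall_self e0.le) (fun _ a => e1 a) ht,
        toU_val (cr_unit h hc (e1 ht))⟩
  obtain ⟨y, rfl⟩ := lie_mem h.der (LinearMap.range _) (fun y => ⟨y, rfl⟩) (lie_of_deriv c1 c2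
    (c3.mono (by
      rintro t ⟨u, a, b⟩
      simpa [← b] using Mm_St h a i)))
  exact irr h.stab h.der (h.spn ⊤ inferInstance (h0.imp fun _ a => ⟨trivial, a⟩)) _
    (fun γ _ Z hZ => Tan.conj (by rw [← map_mul, Mdl.rr, map_one]) (loc_conj (Mm_conj h γ) i) hZ)
    ⟨c, c1, c2, c3⟩ (fun e => c4 (by rw [e, map_zero])) hX

omit h in
theorem ox_lim {x : E v → (Matrix n n (E v))ˣ} {Q : Matrix n n (E v)[X]}
    (x1 : ∀ u, (x u).1 = Q.map (eval u)) (x2 : ∀ u u', x (u + u') = x u * x u') {l : E v}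
    (hl : ‖l‖ < 1) (u : E v) : Tendsto (fun j : ℕ => (Pi.mulSingle v (x (l ^ j * u)) : GG E n))
      atTop (𝓝 1) :=
  (((continuous_mulSingle (A := fun i => (Matrix n n (E i))ˣ) v).comp (ox_cont x1 x2)).tendsto' 0 1
    (by simp [ox_zero x2])).comp (by
      simpa using (tendsto_pow_atTop_nhds_zero_of_norm_lt_one hl).mul_const u)

omit h in
theorem single_of {S : Subgroup (GG E n)} {s : Set (Matrix n n (E v))ˣ}
    (h : ∀ u ∈ s, Pi.mulSingle v u ∈ S) : ∀ u ∈ Subgroup.closure s, Pi.mulSingle v u ∈ S :=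
  (Subgroup.closure_le (S.comap (MonoidHom.mulSingle (fun i => (Matrix n n (E i))ˣ) v))).2 h

theorem Mm_cg (ho : ∀ᶠ g in 𝓝 1, g ∈ St E (dt M) → g ∈ Mm M H) :
    ∃ W, IsCompact W ∧ Subgroup.closure W = Mm M H := by
  obtain ⟨A, _, x, Q, t, l, x1, x2, -, x3, x4⟩ := h.gen
  obtain ⟨C, c1, c2, c3⟩ := local_compact_nhds ho
  refine ⟨C ∩ St E (dt M) ∪ Set.range fun a => Pi.mulSingle v (pp E r (t a) v),
    (c3.inter_right (isClosed_St E _)).union (Set.finite_range _).isCompact,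
    le_antisymm ((Subgroup.closure_le _).2 ?_) (Mm_le ⟨mem_of_superset c1 fun g a b =>
      Subgroup.subset_closure (.inl ⟨a, b⟩), fun u hu => single_of (fun u hu => ?_) u (x3 ▸ hu)⟩)⟩
  · rintro _ (a | ⟨a, rfl⟩)
    exacts [c2 a.1 a.2, Mm_single (h.rat _)]
  obtain ⟨a, u, rfl⟩ := Set.mem_iUnion.1 hu
  obtain ⟨j, hj⟩ := ((ox_lim (x1 a) (x2 a) (x4 a).2.1 u).eventually c1).exists
  generalize hW : (C ∩ St E (dt M) ∪ Set.range fun a => Pi.mulSingle v (pp E r (t a) v)) = W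
  have b : Pi.mulSingle v (pp E r (t a) v) ∈ Subgroup.closure W :=
    Subgroup.subset_closure (hW ▸ .inr ⟨a, rfl⟩)
  replace hj : Pi.mulSingle v (x a (l a ^ j * u)) ∈ Subgroup.closure W :=
    Subgroup.subset_closure (hW ▸ .inl ⟨hj, Mm_St h (Mm_single (x3 ▸ Subgroup.subset_closure
      (Set.mem_iUnion.2 ⟨a, _, rfl⟩)))⟩)
  induction j with
  | zero => rwa [pow_zero, one_mul] at hj
  | succ j ih =>
    refine ih ?_
    rw [pow_succ', mul_assoc, ← (x4 a).2.2, Pi.mulSingle_mul, Pi.mulSingle_mul,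
      Pi.mulSingle_inv] at hj
    exact (mul_mem_cancel_left b).1 ((mul_mem_cancel_right (inv_mem b)).1 hj)

theorem Mm_rat (h0 : ∃ γ, r γ ≠ 1) (ho : ∀ᶠ g in 𝓝 1, g ∈ St E (dt M) → g ∈ Mm M H) :
    ∃ γ ∈ (Mm M H).comap (pp E r), r γ ≠ 1 := by
  obtain ⟨A, -, x, Q, t, l, -, -, ⟨a, u, x2⟩, x3, -⟩ := h.gen
  have b : x a u ∈ H := x3 ▸ Subgroup.subset_closure (Set.mem_iUnion.2 ⟨a, _, rfl⟩)
  have c := (P011UN.opn h ⊤ (h0.imp fun _ a => ⟨trivial, a⟩)).2 _ b
  have e := ((by fun_prop : Continuous fun g => (Pi.mulSingle v (x a u) : GG E n)⁻¹ * g).tendsto'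
    _ 1 (inv_mul_cancel _)).eventually ho
  obtain ⟨_, ⟨γ, -, rfl⟩, p, q⟩ := ((mem_closure_iff_frequently.1 c).and_eventually
    (e.and (eventually_ne_nhds (b := 1) fun e => x2 (by simpa using congrFun e v)))).exists
  refine ⟨γ, (mul_mem_cancel_left (inv_mem (Mm_single b))).1
    (p (mul_mem (inv_mem (Mm_St h (Mm_single b))) (pp_St h γ))), fun e => q ?_⟩
  exact _root_.funext fun i => Units.ext (by rw [pp_val, e, map_one]; rfl)

theorem Mm_hom (h0 : ∃ γ, r γ ≠ 1) (ho : ∀ᶠ g in 𝓝 1, g ∈ St E (dt M) → g ∈ Mm M H)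
    (χ : GG E n → ℝ) (hc : ContinuousOn χ (Mm M H))
    (hm : ∀ x ∈ Mm M H, ∀ y ∈ Mm M H, χ (x * y) = χ x + χ y) : ∀ x ∈ Mm M H, χ x = 0 := by
  have a1 : χ 1 = 0 := by simpa using hm 1 (one_mem _) 1 (one_mem _)
  have a2 : ∀ x ∈ Mm M H, χ x⁻¹ = -χ x := fun x hx => by
    have := hm x hx _ (inv_mem hx)
    rw [mul_inv_cancel, a1] at this
    linarith
  have a3 : ∀ x ∈ Mm M H, ∀ y ∈ Mm M H, χ (x * y * x⁻¹) = χ y := fun x hx y hy => by
    rw [hm _ (mul_mem hx hy) _ (inv_mem hx), hm x hx y hy, a2 x hx]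
    ring
  let Z : Subgroup (GG E n) :=
    { carrier := {x | x ∈ Mm M H ∧ χ x = 0}
      one_mem' := ⟨one_mem _, a1⟩
      mul_mem' := fun a b => ⟨mul_mem a.1 b.1, by rw [hm _ a.1 _ b.1, a.2, b.2, add_zero]⟩
      inv_mem' := fun a => ⟨inv_mem a.1, by rw [a2 _ a.1, a.2, neg_zero]⟩ }
  have : ((Mm M H).comap (pp E r)).Normal := ⟨fun a ha γ => by
    simpa using Mm_conj h γ _ ha⟩
  obtain ⟨A, -, x, Q, t, l, x1, x2, -, x3, x4⟩ := h.gen
  refine fun g hg => (Mm_le (S := Z) ⟨opn_of h _ (Mm_rat h h0 ho) (fun g a => Mm_St h a.1)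
    (fun a ha g b => ⟨Mm_conj h a g b.1, (a3 _ ha g b.1).trans b.2⟩) fun a ha =>
      ho.mono fun g b c => ?_, fun u hu => single_of (fun u hu => ?_) u (x3 ▸ hu)⟩ hg).2
  · have e := b (closure_le_St E r h.stab c)
    have f := mul_mem (mul_mem e ha) (inv_mem e)
    exact ⟨mul_mem f (inv_mem ha), by rw [hm _ f _ (inv_mem ha), a3 _ e _ ha, a2 _ ha, add_neg_cancel]⟩
  obtain ⟨a, u, rfl⟩ := Set.mem_iUnion.1 hu
  have b : ∀ u, Pi.mulSingle v (x a u) ∈ Mm M H := fun u =>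
    Mm_single (x3 ▸ Subgroup.subset_closure (Set.mem_iUnion.2 ⟨a, _, rfl⟩))
  have c : ∀ j : ℕ, χ (Pi.mulSingle v (x a (l a ^ j * u))) = χ (Pi.mulSingle v (x a u)) := fun j => by
    induction j with
    | zero => rw [pow_zero, one_mul]
    | succ j ih => rw [pow_succ', mul_assoc, ← (x4 a).2.2, Pi.mulSingle_mul, Pi.mulSingle_mul,
        Pi.mulSingle_inv, a3 _ (Mm_single (h.rat _)) _ (b _), ih]
  have e := (hc 1 (one_mem _)).tendsto.comp (tendsto_nhdsWithin_iff.2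
    ⟨ox_lim (x1 a) (x2 a) (x4 a).2.1 u, .of_forall fun j => b _⟩)
  exact ⟨b u, (tendsto_const_nhds_iff.1 (e.congr c)).trans a1⟩

theorem Mm_x0 : pp E r x0 ∈ Mm M H := by
  obtain ⟨d, P, hc, e, hI⟩ := h.path
  refine Subgroup.pi_mem_of_mulSingle_mem _ fun i => ?_
  rcases eq_or_ne i v with rfl | hi
  · exact Mm_single (h.rat _)
  obtain ⟨I, a, b, c, f⟩ := hI i hi
  have p := cr_rat (K := E i) (by rw [map_one]; exact f 1 c) e
  rw [map_one] at p
  have q := Mm_path h hc hi a b f c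
  rwa [show toU (cr (E i) d P 1) = pp E r x0 i from
    Units.ext ((toU_val (cr_unit h hc (f 1 c))).trans p)] at q

omit h in
/-- **The open subgroup.** -/
theorem opn : P011UW8.OPN := fun k ι n Γ _ _ _ _ _ _ E _ _ _ O v M r H x0 h N hN h0 => by
  classical
  have h1 : ∃ γ, r γ ≠ 1 := h0.imp fun _ a => a.2
  have ho := Mm_open h h1
  exact ⟨Mm M H, Mm_le (P011UN.opn h N h0), ho, Mm_cg h ho, Mm_hom h h1 ho, Mm_x0 h,
    fun g a => (mem_Mm.1 a).2, Mm_St h⟩

omit h in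
/-- **The normal subgroup theorem.** -/
theorem ana (h : COC) : ANA := P011UW8.ana_of h opn

end Vale.Agent.P011UE
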