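import Vale.Agent.P011UE.Kit
import Vale.Agent.P011.H627.Odd.GlueA

/-!
A normal subgroup of finite index which contains the commutators near one is open.
-/

open Module Filter Polynomial
open scoped commutatorElement

namespace Vale.Agent.P011UE

open Vale.Agent.P011.H738 (Place)
open Vale.Agent.P011

variable {k : Type} [Field k] {D : Type} [DivisionRing D] [Algebra k D]

variable (k D) in
/-- The scalars. -/
def sc : kˣ →* Dˣ := Units.map (algebraMap k D : k →* D)

@[simp] theorem val_sc (c : kˣ) : (sc k D c : D) = algebraMap k D c := rfl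

theorem sc_comm (c : kˣ) (u : Dˣ) : Commute (sc k D c) u :=
  Units.ext (Algebra.commutes (c : k) (u : D))

variable {n : ℕ} {N : D →* k}

/-- The element `u ^ n / N u`. -/
theorem Dv.pow_div [FiniteDimensional k D] (h : Dv k D n N) (u : Dˣ) :
    (sc k D (Units.map N u))⁻¹ * u ^ n ∈ G1 N := by
  rw [mem_G1, ← map_inv, Units.val_mul, map_mul, val_sc, h.alg, Units.val_pow_eq_pow_val, map_pow,
    ← mul_pow, Units.val_inv_eq_inv_val]
  simp [Dv.ne_zero u]

variable [FiniteDimensional k D] {T : Finset (Place k)}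

theorem Dv.tendsto_sc (h : Dv k D n N) (T : Finset (Place k)) :
    Tendsto (fun u : Dˣ => sc k D (Units.map N u)) (nU T D) (nU T D) :=
  nU_iff.2 (tendsto_alg.comp ((h.tendsto T).comp (tendsto_val T)))

theorem ev_root (hT : T.Nonempty) (hn : 0 < n) :
    ∀ᶠ u : Dˣ in nU T D, ∀ c : k, c ^ n = 1 → (u : D) = algebraMap k D c → u = 1 := by
  classical
  have h1 : ∀ᶠ x in nT T D, ∀ c ∈ (nthRootsFinset n (1 : k)).erase 1, x ≠ algebraMap k D c :=
    (eventually_all_finset _).2 fun c hc => ev_ne hT fun e =>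
      (Finset.mem_erase.1 hc).1 ((algebraMap k D).injective (e.trans (map_one _).symm))
  filter_upwards [tendsto_val T h1] with u hu c hc e
  by_contra h2
  refine hu c (Finset.mem_erase.2 ⟨fun h3 => h2 (Units.ext ?_), (mem_nthRootsFinset hn _).2 hc⟩) e
  rw [e, h3, map_one, Units.val_one]

theorem ev_unit (hT : T.Nonempty) {p : Dˣ → Prop} (h : ∀ᶠ u in nU T D, p u) :
    ∀ᶠ x in nT T D, ∃ u : Dˣ, (u : D) = x ∧ p u := by
  filter_upwards [eventually_comap.1 h, ev_ne hT (zero_ne_one (α := D))] with x h1 h2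
  exact ⟨Units.mk0 x h2, rfl, h1 _ rfl⟩

theorem core (hR : RWK) : CORE := by
  intro k D _ _ _ _ n N h T hT Q hQ hQG hl hc
  classical
  have hn : 0 < n := zero_lt_two.trans_le h.le
  obtain ⟨O₁, h1, O₂, h2, h3⟩ := mem_prod_iff.1 hc
  obtain ⟨W, hW, hWO⟩ := exists_sub (inter_mem (inter_mem h1 h2) (ev_root hT hn))
  obtain ⟨W₁, hW₁, hWO₁⟩ := exists_sub (inter_mem hW (h.tendsto_sc T hW))
  obtain ⟨E₀, _, c₀, h4, h5⟩ := H627.Odd.exists_quot_char
    (Q := ((sc k D).range ⊓ W) ⊔ Q) (H := W₁) fun a ha b hb =>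
      Subgroup.mem_sup_right (h3 (Set.mk_mem_prod (hWO a (hWO₁ a ha).1).1.1
        (hWO b (hWO₁ b hb).1).1.2))
  have h6 : ∀ (m : ℕ), ∀ u ∈ W₁, c₀ (u ^ m) = c₀ u ^ m := fun m u hu => by
    induction m with
    | zero => rw [pow_zero, pow_zero, h5 1 (one_mem _)]; exact one_mem _
    | succ m ih => rw [pow_succ, pow_succ, h4 _ (pow_mem hu m) _ hu, ih]
  obtain ⟨E, _, c, h7, h8, h9⟩ := H627.Odd.exists_exp_char (e := n * Q.relIndex (G1 N)) h4
    fun u hu => by
      rw [← h6 _ u hu, h5 _ (pow_mem hu _), pow_mul,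
        ← mul_inv_cancel_left (sc k D (Units.map N u)) (u ^ n),
        (((Commute.refl _).inv_right).mul_right (sc_comm _ _)).mul_pow]
      refine Subgroup.mul_mem_sup (pow_mem ?_ _) (Q.pow_relIndex_mem (h.pow_div u))
      exact ⟨⟨_, rfl⟩, (hWO₁ u hu).2⟩
  let F : D → Additive E := fun x => if e : x = 0 then 0 else .ofMul (c (Units.mk0 x e))
  have hF : ∀ u : Dˣ, F u = .ofMul (c u) := fun u => by simp [F]
  have h10 := ev_unit hT hW₁
  have h11 := hR k D n N h T hT (Additive E) _ (mul_ne_zero hn.ne' hl) (fun x => h7 x.toMul) F <| by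
    filter_upwards [h10.prod_mk h10]
    rintro ⟨_, _⟩ ⟨⟨a, rfl, ha⟩, b, rfl, hb⟩
    rw [← Units.val_mul, hF, hF, hF, h8 a ha b hb, ofMul_mul]
  filter_upwards [tendsto_val T h11, hW₁] with u h12 hu hG
  have h13 := h12 (mem_G1.1 hG)
  rw [hF, ofMul_eq_zero, h9 u hu, h5 u hu] at h13
  obtain ⟨_, ⟨⟨z, rfl⟩, hz⟩, q, hq, rfl⟩ := Subgroup.mem_sup_of_normal_right.1 h13
  have h14 := mem_G1.1 ((mul_mem_cancel_right (hQG hq)).1 hG)
  rw [val_sc, h.alg] at h14
  rwa [(hWO _ hz).2 _ h14 rfl, one_mul]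

end Vale.Agent.P011UE
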