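import Vale.Agent.P011UE.Core
import Vale.Agent.P011UE3.Gen

/-!
The noncentral normal subgroups of `SL_1(D)` are open for the places where `D` remains a division
algebra.
-/

open Module Filter
open scoped commutatorElement

namespace Vale.Agent.P011UE

open Vale.Agent.P011.H738 (Place)

variable {k : Type} [Field k] {D : Type} [DivisionRing D] [Algebra k D] [FiniteDimensional k D]
  {n : ℕ} {N : D →* k} {T : Finset (Place k)}

/-- A subgroup which is normal in the whole multiplicative group. -/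
theorem NN.exists_normal (h : Dv k D n N) {H : Subgroup Dˣ} (hH : NN N H)
    (hl : H.relIndex (G1 N) ≠ 0) : ∃ Q ≤ H, Q.Normal ∧ NN N Q := by
  have h1 : (H.subgroupOf (G1 N)).Normal := ⟨fun a ha g => hH.conj g g.2 a ha⟩
  have h2 : ∀ g ∈ G1 N, g ^ H.relIndex (G1 N) ∈ H.normalCore := fun g hg b => by
    rw [← conj_pow]
    exact (H.subgroupOf (G1 N)).pow_index_mem ⟨_, Subgroup.Normal.conj_mem inferInstance g hg b⟩
  refine ⟨_, H.normalCore_le, inferInstance, H.normalCore_le.trans hH.le,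
    fun g _ x hx => Subgroup.Normal.conj_mem inferInstance x hx g, ?_⟩
  by_contra! h3
  obtain ⟨x, -, z, hx⟩ := hH.nc
  obtain ⟨f, -⟩ := h.split
  have := h.central
  have := h.infinite
  have hn : n ≠ 0 := (zero_lt_two.trans_le h.le).ne'
  have h4 : ∀ u : Dˣ, (u : D) ∈ Algebra.adjoin k {(u : D) ^ (n * H.relIndex (G1 N))} →
      Commute z u := fun u hu => by
    refine Algebra.commute_of_mem_adjoin_singleton_of_commute hu ?_
    rw [← Units.val_pow_eq_pow_val, pow_mul, ← mul_inv_cancel_left (sc k D (Units.map N u)) (u ^ n),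
      (((Commute.refl _).inv_right).mul_right (sc_comm _ _)).mul_pow, Units.val_mul]
    refine Commute.mul_right ?_ (h3 _ (h2 _ (h.pow_div u)) z).symm
    rw [← map_pow]
    exact (Algebra.commutes _ z).symm
  obtain ⟨y, h5, h6⟩ := P011UE3.exists_gen hn h.rank f (Nat.pos_of_ne_zero (mul_ne_zero hn hl)) x
  have h7 := ((h4 y h5).units_inv_right).mul_right (h4 _ h6)
  rw [← Units.val_mul, inv_mul_cancel_left] at h7
  exact hx h7.symm

/-- The solvable quotient. -/
theorem opn_of_split (hR : RSS) (hS : STEP) (h : Dv k D n N) (hT : T.Nonempty)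
    (hs : ∀ v ∉ T, Sp D n v) {Q : Subgroup Dˣ} [hQ : Q.Normal] (hN : NN N Q)
    (hl : Q.relIndex (G1 N) ≠ 0) : Opn N T Q := by
  let π := QuotientGroup.mk' Q
  let A := (G1 N).map π
  have : A.Normal := Subgroup.Normal.map inferInstance π (QuotientGroup.mk'_surjective Q)
  have : Finite A := by
    have : (Q.subgroupOf (G1 N)).FiniteIndex := ⟨hl⟩
    refine ((Set.finite_range (QuotientGroup.map (Q.subgroupOf (G1 N)) Q (G1 N).subtype
      le_rfl)).subset ?_).to_subtype
    rintro _ ⟨x, hx, rfl⟩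
    exact ⟨QuotientGroup.mk ⟨x, hx⟩, rfl⟩
  let ψ := ((MulAut.conjNormal (H := A)).comp π).rangeRestrict
  have h1 : ∀ u, ψ u = 1 ↔ ∀ g ∈ G1 N, ⁅u, g⁆ ∈ Q := fun u => by
    have e : ∀ g, ⁅u, g⁆ ∈ Q ↔ π u * π g * (π u)⁻¹ = π g := fun g => by
      rw [← mul_inv_eq_one, ← commutatorElement_def, ← map_commutatorElement]
      exact (QuotientGroup.eq_one_iff _).symm
    refine Subtype.ext_iff.trans (MulEquiv.ext_iff.trans ⟨fun h1 g hg => (e g).2
      (congrArg Subtype.val (h1 ⟨_, g, hg, rfl⟩)), ?_⟩)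
    rintro h1 ⟨_, g, hg, rfl⟩
    exact Subtype.ext ((e g).1 (h1 g hg))
  obtain ⟨r, hr⟩ := hR k D n N h _ ψ (MonoidHom.rangeRestrict_surjective _) <| by
    rintro u ⟨c, hc⟩
    refine (h1 u).2 fun g _ => ?_
    rw [commutatorElement_eq_one_iff_mul_comm.2 (Units.ext ?_)]
    · exact one_mem _
    · rw [Units.val_mul, Units.val_mul, ← hc, Algebra.commutes]
  let X : ℕ → Subgroup Dˣ := fun i => (derivedSeries _ i).comap ψ ⊓ G1 N
  have h2 : ∀ i, (X i).Normal := fun i => inferInstance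
  have h3 : ∀ i, Q ≤ X i := fun i q hq => Subgroup.mem_inf.2 ⟨by
    rw [Subgroup.mem_comap, (h1 q).2 fun g _ => ?_]
    · exact one_mem _
    · rw [commutatorElement_def, mul_assoc, mul_assoc, ← mul_assoc g]
      exact mul_mem hq (hQ.conj_mem _ (inv_mem hq) g), hN.le hq⟩
  have h4 : ∀ i, Opn N T (X i) := fun i => by
    induction i with
    | zero => exact .of_forall fun u hu => ⟨trivial, hu⟩
    | succ i ih =>
      refine hS k D n N h T hT hs _ _ (h2 _) (h2 i) ⟨inf_le_right, fun g _ x hx =>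
        (h2 _).conj_mem x hx g, hN.nc.imp fun x hx => ⟨h3 _ hx.1, hx.2⟩⟩
        (fun e => hl (Subgroup.relIndex_eq_zero_of_le_left (h3 _) e)) inf_le_right
        (Subgroup.commutator_le.2 fun a ha b hb => Subgroup.mem_inf.2 ⟨?_, comm_mem N a b⟩) ih
      rw [Subgroup.mem_comap, map_commutatorElement]
      exact Subgroup.commutator_mem_commutator ha.1 hb.1
  refine hS k D n N h T hT hs _ _ hQ (h2 r) hN hl inf_le_right
    (Subgroup.commutator_le.2 fun a ha b hb => (h1 a).1 ?_ b hb.2) (h4 r)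
  have h5 : ψ a ∈ derivedSeries _ r := ha.1
  rwa [hr] at h5

open scoped Classical in
theorem Opn.remove {Q : Subgroup Dˣ} {v : Place k} (h : Opn N (insert v T) Q) (hQ : Q ≤ G1 N) :
    ∃ U : Subgroup Dˣ, (U : Set Dˣ) ∈ nU T D ∧ ∃ O ∈ nU {v} D, ∀ g ∈ U, g ∈ G1 N →
      (∃ q ∈ Q, q ∈ (U : Set Dˣ) ∧ q⁻¹ * g ∈ O) → g ∈ Q := by
  rw [Opn, Finset.insert_eq, nU_union, eventually_inf] at h
  obtain ⟨O, hO, O', hO', h1⟩ := h
  obtain ⟨U, hU, h2⟩ := exists_sub hO'
  refine ⟨U, hU, O, hO, fun g hg h3 ⟨q, hq, h4, h5⟩ => (Q.mul_mem_cancel_left (inv_mem hq)).1 ?_⟩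
  exact h1 _ ⟨h5, h2 _ (U.mul_mem (U.inv_mem h4) hg)⟩ (mul_mem (inv_mem (hQ hq)) h3)

theorem fi (hN : NST) (hA : RAM) (hR : RSS) (hS : STEP) (hC : CORE) (hc : DENC) (hd : DENS) :
    FI := by
  intro k D _ _ _ _ n N h T hT H hH
  classical
  obtain ⟨Q, h1, hQ, h2⟩ := hH.exists_normal h (hN k D n N h H hH)
  have hl := hN k D n N h Q h2
  obtain ⟨h3, _⟩ := hA k D n N h
  obtain ⟨w, hw⟩ := Infinite.exists_notMem_finset (T ∪ h3.toFinset)
  rw [Finset.mem_union, not_or, Set.Finite.mem_toFinset, Set.mem_ofPred_eq, not_not] at hw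
  have h4 : ∀ R : Finset (Place k), (insert w T ∪ R).Nonempty := fun R => ⟨w, by simp⟩
  have h5 : ∀ R : Finset (Place k), Opn N (insert w T ∪ R) Q → Opn N (insert w T) Q := fun R => by
    induction R using Finset.induction_on with
    | empty => rw [Finset.union_empty]; exact id
    | insert v R _ ih =>
      rw [Finset.union_insert]
      intro h6
      by_cases hv : v ∈ insert w T ∪ R
      · exact ih (by rwa [Finset.insert_eq_of_mem hv] at h6)
      obtain ⟨U, hU, O, hO, h7⟩ := h6.remove h2.le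
      refine ih (hC k D n N h _ (h4 R) Q hQ h2.le hl ?_)
      filter_upwards [prod_mem_prod hU hU]
      rintro ⟨a, b⟩ ⟨ha, hb⟩
      exact h7 _ (U.mul_mem (U.mul_mem (U.mul_mem ha hb) (U.inv_mem ha)) (U.inv_mem hb))
        (comm_mem N a b) (hc k D n N h Q h2 _ v hv (hT v fun e => hv (by simp [e])) a b _ hU O hO)
  obtain ⟨U, hU, O, hO, h6⟩ := (h5 h3.toFinset (opn_of_split hR hS h (h4 _)
    (fun v hv => by_contra fun e => hv (by simp [e])) h2 hl)).remove h2.le
  filter_upwards [hU] with g hg h7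
  exact h1 (h6 g hg h7 (hd k D n N h Q h2 T w hw.1 hw.2 g h7 _ hU O hO))

end Vale.Agent.P011UE
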