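import Vale.Agent.P011UE.Kit

/-!
The solvable step: if `H` is open and `⁅H, H⁆ ≤ Q` then `Q` is open.
-/

open Module Filter
open scoped commutatorElement

namespace Vale.Agent.P011UE

open Vale.Agent.P011.H738 (Place)

variable {k : Type} [Field k] {D : Type} [DivisionRing D] [Algebra k D] [FiniteDimensional k D]
  {n : ℕ} {N : D →* k} {T : Finset (Place k)}

/-- The norms from the subfields and the elements of norm one give everything near one. -/
theorem ATL.unif (hA : ATL) (h : Dv k D n N) (hT : T.Nonempty) {H : Subgroup Dˣ} (hH : Opn N T H)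
    {y₀ : D} (h0 : Reg n (∅ : Finset (Place k)) y₀) {O₀ : Set Dˣ} (hO₀ : O₀ ∈ nU T D) :
    ∃ V ∈ nU T D, ∀ S : Subgroup Dˣ, H ≤ S → Fld k y₀ O₀ S →
      (∀ j : Finset (Place k), Disjoint j T → ∃ y : D, Reg n j y ∧ Fld k y Set.univ S) →
      ∀ u ∈ V, u ∈ S := by
  obtain ⟨U, hU, h1⟩ := exists_sub hH
  obtain ⟨V, hV, h2⟩ := hA k D n N h T hT y₀ h0 _ (inter_mem hO₀ hU)
  refine ⟨_, inter_mem hU (((h.tendsto T).comp (tendsto_val T)) hV), fun S h3 h4 h5 u hu => ?_⟩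
  obtain ⟨w, hw, e⟩ := h2 (S ⊓ U) (fun a ha hb => ⟨h4 a ha.1 hb, ha.2⟩)
    (fun j hj => (h5 j hj).imp fun y hy => ⟨hy.1, U, hU, fun a ha hb => ⟨hy.2 a trivial hb, ha⟩⟩)
    _ hu.2 (Dv.ne_zero u) (h.pos u)
  refine (S.mul_mem_cancel_left (S.inv_mem hw.1)).1
    (h3 (h1 _ (U.mul_mem (U.inv_mem hw.2) hu.1) ?_))
  rw [G1, MonoidHom.mem_ker, map_mul, map_inv, inv_mul_eq_one]
  exact Units.ext e

theorem step (hA : ATL) (hS : SPLQ) (hC : CORE) : STEP := by
  intro k D _ _ _ _ n N h T hT hs Q H hQ _ hN hl hHG hc hH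
  let π := QuotientGroup.mk' Q
  let C : Dˣ → Subgroup Dˣ := fun x => (Subgroup.centralizer {π x}).comap π
  have hC1 : ∀ x u, u ∈ C x ↔ π x * π u = π u * π x := fun x u =>
    Subgroup.mem_centralizer_singleton_iff.trans eq_comm
  have hC2 : ∀ x u, u ∈ C x ↔ ⁅x, u⁆ ∈ Q := fun x u => by
    rw [hC1, ← commutatorElement_eq_one_iff_mul_comm, ← map_commutatorElement]
    exact QuotientGroup.eq_one_iff _
  have hC3 : ∀ {x u}, u ∈ C x → x ∈ C u := fun e => (hC1 _ _).2 ((hC1 _ _).1 e).symm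
  have h1 : ∀ x, ∀ j : Finset (Place k), Disjoint j T →
      ∃ y : D, Reg n j y ∧ Fld k y Set.univ (C x) := fun x j hj => by
    obtain ⟨q, hq, -, e⟩ := hS k D n N h Q hN T j hj
      (fun v hv => hs v (Finset.disjoint_left.1 hj hv)) x _ univ_mem
    refine ⟨_, e, fun u _ hu => (hC1 _ _).2 ?_⟩
    have h2 : π (x * q) = π x := QuotientGroup.mk_mul_of_mem x hq
    rw [← h2, ← map_mul, ← map_mul]
    exact congrArg π (Units.ext (Algebra.commute_of_mem_adjoin_self hu))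
  have h2 : ∀ a ∈ π '' H, ∀ᶠ u in nU T D, a * π u = π u * a := by
    rintro _ ⟨x, hx, rfl⟩
    obtain ⟨y, h3, h4⟩ := h1 x ∅ (Finset.disjoint_empty_left T)
    obtain ⟨V, hV, h5⟩ := hA.unif h hT hH h3 univ_mem
    filter_upwards [hV] with u hu
    exact (hC1 _ _).1 (h5 _ (fun a ha => (hC2 _ _).2
      (hc (Subgroup.commutator_mem_commutator hx ha))) h4 (h1 x) u hu)
  have h3 : (π '' H).Finite := by
    have : (Q.subgroupOf (G1 N)).FiniteIndex := ⟨hl⟩
    refine (Set.finite_range (QuotientGroup.map (Q.subgroupOf (G1 N)) Q (G1 N).subtype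
      le_rfl)).subset ?_
    rintro _ ⟨x, hx, rfl⟩
    exact ⟨QuotientGroup.mk ⟨x, hHG hx⟩, rfl⟩
  have h4 : ∀ᶠ u in nU T D, H ≤ C u := by
    filter_upwards [(eventually_all_finite h3).2 h2] with u hu x hx
    exact (hC1 _ _).2 (hu _ ⟨x, hx, rfl⟩).symm
  obtain ⟨y, h5, -⟩ := h1 1 ∅ (Finset.disjoint_empty_left T)
  obtain ⟨V, hV, h6⟩ := hA.unif h hT hH h5 h4
  refine hC k D n N h T hT Q hQ hN.le hl ?_
  filter_upwards [prod_mem_prod (inter_mem h4 hV) hV]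
  rintro ⟨a, b⟩ ⟨⟨h7, h8⟩, h9⟩
  refine (hC2 _ _).1 (h6 _ h7 (fun x hx h10 => hC3 (h6 _ hx (fun u _ hu => (hC1 _ _).2 ?_)
    (h1 x) a h8)) (h1 a) b h9)
  rw [← map_mul, ← map_mul]
  exact congrArg π (Units.ext (Algebra.commute_of_mem_adjoin_singleton_of_commute hu
    (Algebra.commute_of_mem_adjoin_self h10).symm))

end Vale.Agent.P011UE
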