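import Vale.Agent.P011UE.FI
import Vale.Agent.P011UE.Step
import Vale.Agent.P011UT.Main
import Vale.Agent.P011UZ.Main
import Vale.Agent.P011UZ2.Nsur
import Vale.Agent.P011UY.Asm

/-!
The conjecture for `SL_1(D)` from the remaining steps.
-/

namespace Vale.Agent.P011UE

theorem mpd_of (hA : RAM) (hN : NST) (hc : DENC) (hd : DENS) (hq : SPLQ) (hR : RSS) (hW : RWK) :
    MPD :=
  P011UY.asm (fi hN hA hR (step (P011UZ.atl P011UT.tn2) hq (core hW)) (core hW) hc hd)
    (P011UZ2.nsur hA (P011UZ.atl P011UT.tn2)) hA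

end Vale.Agent.P011UE
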