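import Vale.Agent.P011UE.Kit
import Vale.Agent.P011.H380.Good7.SplitMax
import Vale.Agent.P011.H380.Good7.SplitMaxF
import Vale.Agent.P011.H973.Full.PlaceNF
import Vale.Agent.P011.Pow.Numb

/-!
Almost all places split a central division algebra.
-/

open NumberField IsDedekindDomain

namespace Vale.Agent.P011UE

open Vale.Agent.P011 Vale.Agent.P011.H308 Vale.Agent.P011.H973.Full

theorem ram : RAM := by
  intro k D _ _ _ _ n N h
  have := h.central
  classical
  rcases h.glob with hk | hk
  · have : Infinite (HeightOneSpectrum (𝓞 k)) := not_finite_iff_infinite.1 fun _ =>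
      (Pow.exists_out (k := k) Set.finite_univ).elim fun _ e => e trivial
    obtain ⟨S, hS⟩ := H380.Good7.exists_spl_set (F := k) (B := D) h.rank
    refine ⟨(S.finite_toSet.image fun v => plHos k v).subset fun w hw => ?_,
      .of_injective _ plHos_injective⟩
    obtain ⟨v, rfl⟩ := exists_eq_plHos w
    refine ⟨v, by_contra fun e => hw ?_, rfl⟩
    have h1 := (hS v e).comp (toPl k v)
    rwa [show (toPl k v).comp (algebraMap k _) = algebraMap k _ from
      RingHom.ext toPl_algebraMap] at h1
  · have := H271.gff_of_isGlobal hk
    obtain ⟨S, hS⟩ := H380.Good7.exists_spl_setF (F := k) (B := D) h.rank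
    refine ⟨S.finite_toSet.subset fun w hw => by_contra fun e => hw (hS w e),
      .of_not_fintype fun _ => ?_⟩
    exact (H380.Good7.exists_notMemF (F := k) Finset.univ).elim fun v hv => hv (Finset.mem_univ v)

end Vale.Agent.P011UE
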