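import Vale.Agent.P011UE.NsP
import Vale.Agent.P011UW3.Main
import Vale.Agent.P011.H612.Germ.RwNF

/-!
Number fields: homomorphisms of finite exponent near one vanish on the elements of reduced norm one.
-/

set_option linter.unusedSectionVars false
set_option linter.unusedSimpArgs false
set_option linter.style.haveILetI false

open Module Filter Topology TensorProduct Matrix IntermediateField NumberField IsDedekindDomain

namespace Vale.Agent.P011UE

open Vale.Agent.P011 Vale.Agent.P011.H677.GW Vale.Agent.P011.H775.Top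
open Vale.Agent.P011.W (HasNrd Spl hasNrd_iff deg_pos exists_centralizer exists_maxfield)
open Vale.Agent.P011.H505.Wang (skolem hasNrd_norm cyclic_aux exists_coprime' one_of_deg_one)
open Vale.Agent.P011S (exists_split)
open Vale.Agent.P011.H308 (plHos)
open Vale.Agent.P011.Arith (Pl plAbv)

section

variable (k : Type) [Field k] [TopologicalSpace k] [IsTopologicalDivisionRing k] [T2Space k]

theorem h90_pos [CharZero k] {E Z : Type} [Field E] [Field Z] [Algebra E Z] [Algebra k Z]
    [Algebra k E] [IsScalarTower k E Z] [FiniteDimensional E Z] [FiniteDimensional k E]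
    [IsGalois E Z] (σ : Z ≃ₐ[E] Z) (hσ : ∀ τ : Z ≃ₐ[E] Z, τ ∈ Subgroup.zpowers σ)
    (h2 : ∀ z, σ (σ z) = z) {V : Set Z} (hV : V ∈ nb k Z) :
    ∀ᶠ a in nb k Z, Algebra.norm E a = 1 →
      ∃ b ∈ V, b ≠ 0 ∧ a * σ b = b ∧ ∀ ψ : Z →+* ℝ, 0 < ψ a → 0 < ψ b := by
  have hfk : FiniteDimensional k Z := Module.Finite.trans E Z
  have hcZ : CharZero Z := charZero_of_injective_algebraMap (algebraMap k Z).injective
  have h0 : Tendsto (fun y : Z => 2⁻¹ * (y + σ y)) (nb k Z) (nb k Z) :=
    (nb_lin k (LinearMap.mulLeft k (2⁻¹ : Z) ∘ₗ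
      (LinearMap.id + (σ.toLinearMap : Z →ₗ[E] Z).restrictScalars k)) (by
        simp [one_add_one_eq_two])).congr fun y => by simp
  have h1 : Tendsto (fun y : Z => y * (2⁻¹ * (y + σ y))) (nb k Z) (nb k Z) :=
    (nb_mul k (A := Z)).comp (tendsto_id.prodMk h0)
  have h11 : {y : Z | y * (2⁻¹ * (y + σ y)) ∈ V ∧ y * (2⁻¹ * (y + σ y)) ≠ 0} ∈ nb k Z :=
    h1.eventually ((eventually_mem_set.2 hV).and (nb_ne_zero k (C := Z)))
  refine (h90_near k σ hσ h11).mono fun a h3 h4 => ?_
  obtain ⟨y, h5, h6, h7⟩ := h3 h4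
  refine ⟨_, h5.1, h5.2, ?_, fun ψ h8 => ?_⟩
  · rw [map_mul, ← mul_assoc, h7, map_mul, map_add, h2, map_inv₀, map_ofNat, add_comm]
  · have h9 : ψ (σ y) ≠ 0 := (_root_.map_ne_zero ψ).2 ((_root_.map_ne_zero σ).2 h6)
    have h10 : ψ y = ψ a * ψ (σ y) := by rw [← map_mul, h7]
    rw [map_mul, map_mul, map_add, h10, map_inv₀, map_ofNat,
      show ∀ s t : ℝ, s * t * (2⁻¹ * (s * t + t)) = 2⁻¹ * s * (s + 1) * t ^ 2 from
        fun s t => by ring]
    positivity

/-- **The inductive step.** -/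
theorem step_two {A : Type} [AddCommGroup A] (hConj : ConjP k A)
    [CharZero k] {p e m' : ℕ} (hp : p.Prime) (hp2 : p = 2) {E D : Type} [Field E] [Algebra k E]
    [FiniteDimensional k E] [DivisionRing D] [Algebra E D] [Algebra k D] [IsScalarTower k E D]
    [FiniteDimensional E D] [Algebra.IsCentral E D] (hD : finrank E D = (p ^ (e + 1)) ^ 2)
    {L Z : Type} [Field L] [Algebra E L] [Algebra k L] [IsScalarTower k E L]
    (hL : finrank E L = p ^ (e + 1)) (j : L →ₐ[E] D) [Field Z] [Algebra E Z] [Algebra k Z]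
    [IsScalarTower k E Z] [Algebra Z L] [IsScalarTower E Z L] [FiniteDimensional E Z]
    [IsGalois E Z] (hZ : finrank E Z = p)
    (hNS : ∀ (C : Type) [DivisionRing C] [Algebra Z C] [Algebra k C] [IsScalarTower k Z C]
      [FiniteDimensional Z C] [Algebra.IsCentral Z C] (_ : finrank Z C = (p ^ e) ^ 2),
      ∀ V ∈ nb k C, ∀ᶠ b in nb k Z, (∀ ψ : Z →+* ℝ, Spl C (p ^ e) ψ ∨ 0 < ψ b) →
        ∃ t ∈ V, HasNrd Z (p ^ e) t b)
    (IH : ∀ (C : Type) [DivisionRing C] [Algebra Z C] [Algebra k C] [IsScalarTower k Z C]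
      [FiniteDimensional Z C] [Algebra.IsCentral Z C] (_ : finrank Z C = (p ^ e) ^ 2)
      (F : C → A), Good k F → ∀ᶠ x in nb k C, HasNrd Z (p ^ e) x 1 → m' • F x = 0)
    (F : D → A) (hF : Good k F) :
    ∀ᶠ u in nb k L, Algebra.norm E u = 1 → m' • F (j u) = 0 := by
  have hik : Infinite k := .of_injective _ Nat.cast_injective
  have hcZ : CharZero Z := charZero_of_injective_algebraMap (algebraMap k Z).injective
  have hiE : Infinite E := Infinite.of_injective _ (algebraMap k E).injective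
  have hiZ : Infinite Z := Infinite.of_injective _ (algebraMap k Z).injective
  have hfL : FiniteDimensional E L :=
    Module.finite_of_finrank_pos (by rw [hL]; exact pow_pos hp.pos _)
  have hfZL : FiniteDimensional Z L := Module.Finite.of_restrictScalars_finite E Z L
  have hfkZ : FiniteDimensional k Z := Module.Finite.trans E Z
  have hfkD : FiniteDimensional k D := Module.Finite.trans E D
  have hkZL : IsScalarTower k Z L := IsScalarTower.of_algebraMap_eq fun x => by
    rw [IsScalarTower.algebraMap_apply k E Z, ← IsScalarTower.algebraMap_apply E Z L,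
      ← IsScalarTower.algebraMap_apply k E L]
  let jZ : Z →ₐ[E] D := j.comp (IsScalarTower.toAlgHom E Z L)
  have hjZ : ∀ z, jZ z = j (algebraMap Z L z) := fun z => rfl
  obtain ⟨C, _, _, _, _, ι, hC, hιZ, hιc⟩ := exists_centralizer (F := E) (D := D) (m := p ^ e)
    (n := p) (by rw [hD, pow_succ' p e]) hZ hp.pos jZ
  have hιinj : Function.Injective ι := ι.injective
  let _ : Algebra k C := Algebra.compHom C (algebraMap k Z)
  have hkZC : IsScalarTower k Z C := IsScalarTower.of_algebraMap_eq fun x => rfl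
  have hfkC : FiniteDimensional k C := Module.Finite.trans Z C
  have hιk : ∀ c : k, ι (algebraMap k C c) = algebraMap k D c := by
    intro c
    rw [IsScalarTower.algebraMap_apply k Z C, hιZ, IsScalarTower.algebraMap_apply k E Z,
      jZ.commutes, ← IsScalarTower.algebraMap_apply k E D]
  let ιk : C →ₐ[k] D := { ι with commutes' := hιk }
  have hιιk : ∀ x, ιk x = ι x := fun x => rfl
  -- the maximal subfield in the centralizer
  have hcomm : ∀ l z, j l * jZ z = jZ z * j l := by
    intro l z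
    rw [hjZ, ← map_mul, ← map_mul, mul_comm]
  choose c hc using fun l => hιc (j l) (hcomm l)
  let jC : L →ₐ[Z] C :=
    { toFun := c
      map_one' := hιinj (by rw [hc, map_one, map_one])
      map_mul' := fun x y => hιinj (by rw [hc, map_mul, map_mul, hc, hc])
      map_zero' := hιinj (by rw [hc, map_zero, map_zero])
      map_add' := fun x y => hιinj (by rw [hc, map_add, map_add, hc, hc])
      commutes' := fun z => hιinj (by rw [hc, hιZ, hjZ]) }
  have hjC : ∀ l, ι (jC l) = j l := hc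
  have hZL : finrank Z L = p ^ e := by
    have h1 := finrank_mul_finrank E Z L
    rw [hZ, hL, pow_succ'] at h1
    exact Nat.eq_of_mul_eq_mul_left hp.pos h1
  -- the cyclic group
  have : Fact p.Prime := ⟨hp⟩
  have hcard : Nat.card (Z ≃ₐ[E] Z) = p := by rw [IsGalois.card_aut_eq_finrank, hZ]
  have hcyc : IsCyclic (Z ≃ₐ[E] Z) := isCyclic_of_prime_card hcard
  obtain ⟨σ, hσ⟩ := hcyc.exists_generator
  -- Skolem-Noether
  obtain ⟨g, hg0, hg⟩ := skolem jZ (jZ.comp (σ : Z →ₐ[E] Z))
  have hg' : ∀ z, g * jZ z = jZ (σ z) * g := hg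
  have hcomm' : ∀ x z, ι x * jZ z = jZ z * ι x := by
    intro x z
    rw [← hιZ, ← map_mul, ← map_mul, Algebra.commutes]
  have hconj : ∀ x z, g * ι x * g⁻¹ * jZ z = jZ z * (g * ι x * g⁻¹) := by
    intro x z
    obtain ⟨w, rfl⟩ := σ.surjective z
    have h1 : g⁻¹ * jZ (σ w) = jZ w * g⁻¹ := by
      have h2 : jZ (σ w) = g * jZ w * g⁻¹ := by
        rw [hg', mul_assoc, mul_inv_cancel₀ hg0, mul_one]
      rw [h2, ← mul_assoc, ← mul_assoc, inv_mul_cancel₀ hg0, one_mul]
    calc g * ι x * g⁻¹ * jZ (σ w) = g * ι x * (g⁻¹ * jZ (σ w)) := mul_assoc _ _ _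
      _ = g * (ι x * jZ w) * g⁻¹ := by rw [h1]; simp only [mul_assoc]
      _ = g * jZ w * ι x * g⁻¹ := by rw [hcomm']; simp only [mul_assoc]
      _ = jZ (σ w) * (g * ι x * g⁻¹) := by rw [hg']; simp only [mul_assoc]
  choose κ0 hκ0 using fun x => hιc (g * ι x * g⁻¹) (hconj x)
  let κ : C →+* C :=
    { toFun := κ0
      map_one' := hιinj (by rw [hκ0, map_one, mul_one, mul_inv_cancel₀ hg0])
      map_mul' := fun x y => hιinj (by
        rw [hκ0, map_mul, map_mul, hκ0, hκ0]
        simp only [mul_assoc, inv_mul_cancel_left₀ hg0])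
      map_zero' := hιinj (by rw [hκ0, map_zero, mul_zero, zero_mul])
      map_add' := fun x y => hιinj (by rw [hκ0, map_add, map_add, hκ0, hκ0, mul_add, add_mul]) }
  have hκ : ∀ x, ι (κ x) = g * ι x * g⁻¹ := hκ0
  have hκZ : ∀ z, κ (algebraMap Z C z) = algebraMap Z C (σ z) := by
    intro z
    apply hιinj
    rw [hκ, hιZ, hιZ, hg', mul_assoc, mul_inv_cancel₀ hg0, mul_one]
  let κk : C →ₐ[k] C := { κ with
    commutes' := fun x => by
      change κ (algebraMap k C x) = algebraMap k C x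
      rw [IsScalarTower.algebraMap_apply k Z C, hκZ, IsScalarTower.algebraMap_apply k E Z,
        AlgEquiv.commutes] }
  have hκκk : ∀ x, κk x = κ x := fun x => rfl
  let jCk : L →ₐ[k] C := jC.restrictScalars k
  have hjjCk : ∀ x, jCk x = jC x := fun x => rfl
  have hι0 : ∀ x : C, x ≠ 0 → ι x ≠ 0 := fun x hx => by rwa [Ne, map_eq_zero]
  have hF' : Good k fun x => F (ι x) := hF.comp ιk
  -- the induction hypothesis
  have hIH := IH C hC (fun x => F (ι x)) hF'
  let v : L × C → C := fun q => jC q.1 * κ q.2 * q.2⁻¹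
  have htj : Tendsto (fun q : L × C => jC q.1) (nb k L ×ˢ nb k C) (nb k C) :=
    (nb_alg k jCk).comp tendsto_fst
  have htκ : Tendsto (fun q : L × C => κ q.2) (nb k L ×ˢ nb k C) (nb k C) :=
    (nb_alg k κk).comp tendsto_snd
  have hti : Tendsto (fun q : L × C => q.2⁻¹) (nb k L ×ˢ nb k C) (nb k C) :=
    (nb_inv k).comp tendsto_snd
  have htjκ : Tendsto (fun q : L × C => jC q.1 * κ q.2) (nb k L ×ˢ nb k C) (nb k C) :=
    (nb_mul k (A := C)).comp (htj.prodMk htκ)
  have htv : Tendsto v (nb k L ×ˢ nb k C) (nb k C) :=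
    (nb_mul k (A := C)).comp (htjκ.prodMk hti)
  have e1 := htv.eventually hIH
  have e2 : ∀ᶠ q in nb k L ×ˢ nb k C, F (ι (v q * q.2)) = F (ι (v q)) + F (ι q.2) :=
    (htv.prodMk tendsto_snd).eventually hF'
  have e3 : ∀ᶠ q in nb k L ×ˢ nb k C, F (ι (jC q.1 * κ q.2)) = F (ι (jC q.1)) + F (ι (κ q.2)) :=
    (htj.prodMk htκ).eventually hF'
  have e4 : ∀ᶠ q in nb k L ×ˢ nb k C, F (g * ι q.2 * g⁻¹) = F (ι q.2) :=
    ((nb_alg k ιk).comp tendsto_snd).eventually (hConj D F hF g hg0)
  have e5 : ∀ᶠ q in nb k L ×ˢ nb k C, q.2 ≠ 0 :=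
    tendsto_snd.eventually (nb_ne_zero k (C := C))
  have e6 : ∀ᶠ q in nb k L ×ˢ nb k C, HasNrd Z (p ^ e) (v q) 1 → m' • F (j q.1) = 0 := by
    filter_upwards [e1, e2, e3, e4, e5] with q h1 h2 h3 h4 h5 h6
    have h7 : v q * q.2 = jC q.1 * κ q.2 := by
      change jC q.1 * κ q.2 * q.2⁻¹ * q.2 = _
      rw [inv_mul_cancel_right₀ h5]
    rw [h7, h3, hκ, h4, hjC] at h2
    rw [add_right_cancel h2]
    exact h1 h6
  obtain ⟨pa, hpa, pb, hpb, hab⟩ := Filter.eventually_prod_iff.mp e6
  have e7 := hNS C hC {t | pb t ∧ t ≠ 0} (hpb.and (nb_ne_zero k (C := C)))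
  have e8 := (nb_norm k (Z := Z) (A := L)).eventually (h90_pos k σ hσ (fun z => by
    rw [← AlgEquiv.mul_apply, ← sq, ← hp2, ← hcard, pow_card_eq_one', AlgEquiv.one_apply]) e7)
  filter_upwards [hpa, e8] with u h1 h2 hu
  have hu0 : u ≠ 0 := by
    rintro rfl
    rw [Algebra.norm_zero] at hu
    exact zero_ne_one hu
  have hn : Algebra.norm E (Algebra.norm Z u) = 1 := by rw [Algebra.norm_norm, hu]
  have hy00 : HasNrd Z (p ^ e) (jC u) (Algebra.norm Z u) := hasNrd_norm hC hZL jC u
  obtain ⟨y, hy1, hy0, hy, hy2⟩ := h2 hn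
  obtain ⟨t, ⟨ht1, ht0⟩, ht⟩ := hy1 fun ψ => or_iff_not_imp_left.2 fun e =>
    hy2 ψ (W.nrd_pos_of hC ψ e ((_root_.map_ne_zero jC).2 hu0) hy00)
  have hκt : HasNrd Z (p ^ e) (κ t) (σ y) := by
    rw [hasNrd_iff]
    intro Ω _ φ f hf
    have h1 := hasNrd_iff.mp ht Ω (φ.comp (σ : Z →+* Z)) (f.comp κ) (by
      intro z
      rw [RingHom.comp_apply, hκZ, hf]
      rfl)
    exact h1
  have hv : HasNrd Z (p ^ e) (jC u * κ t * t⁻¹) 1 := by
    have h1 := (hy00.mul hκt).mul (ht.inv ht0)
    have e1 : Algebra.norm Z u * σ y * y⁻¹ = 1 := by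
      rw [hy, mul_inv_cancel₀ hy0]
    rwa [e1] at h1
  exact hab h1 ht1 hv

/-- **Wang's theorem near one in prime power degree**, centres separable over the base field. -/
theorem sk1_two {A : Type} [AddCommGroup A] (hConj : ConjP k A) (hBase : BaseP k A) [CharZero k]
    {M m' a p : ℕ} (hMA : ∀ x : A, M • x = 0) (hMk : (M : k) ≠ 0) (hroot : RootP k M)
    (hp : p.Prime) (hp2 : p = 2) (hNS : NSP k) (hM : M = p ^ a * m') (e : ℕ) : ∀ (Z C : Type) [Field Z]
    [Algebra k Z] [FiniteDimensional k Z] [Algebra.IsSeparable k Z] [DivisionRing C]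
    [Algebra Z C] [Algebra k C]
    [IsScalarTower k Z C] [FiniteDimensional Z C] [Algebra.IsCentral Z C]
    (_ : finrank Z C = (p ^ e) ^ 2) (F : C → A) (_ : Good k F),
    ∀ᶠ x in nb k C, HasNrd Z (p ^ e) x 1 → m' • F x = 0 := by
  have hik : Infinite k := .of_injective _ Nat.cast_injective
  rcases Nat.eq_zero_or_pos a with ha | ha
  · subst ha
    rw [pow_zero, one_mul] at hM
    subst hM
    intro Z C _ _ _ _ _ _ _ _ _ _ _ F _
    exact Filter.Eventually.of_forall fun x _ => hMA _
  have hpk : (p : k) ≠ 0 := by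
    intro h
    apply hMk
    obtain ⟨b, rfl⟩ : ∃ b, a = b + 1 := ⟨a - 1, by omega⟩
    rw [hM, Nat.cast_mul, Nat.cast_pow, h, pow_succ, mul_zero, zero_mul]
  induction e with
  | zero =>
    intro Z C _ _ _ _ _ _ _ _ _ _ hC F hF
    refine Filter.Eventually.of_forall fun x hx => ?_
    rw [pow_zero] at hC hx
    obtain ⟨f⟩ := exists_split (K := Z) (D := C) hC (AlgebraicClosure Z)
    have h1 : x = 1 := one_of_deg_one (by rw [hC, one_pow]) f (by rw [hx, map_one])
    rw [h1, hF.one, smul_zero]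
  | succ e ih =>
    intro Z C _ _ _ _ _ _ _ _ _ _ hC F hF
    have hpZ : (p : Z) ≠ 0 := by
      intro h
      apply hpk
      apply (algebraMap k Z).injective
      rw [map_natCast, h, map_zero]
    have hdZ : ((p ^ (e + 1) : ℕ) : Z) ≠ 0 := by
      rw [Nat.cast_pow]
      exact pow_ne_zero _ hpZ
    refine root_near k hMA hroot hC hdZ hF ?_
    intro L _ _ _ _ _ j0 hL
    have hsep : Algebra.IsSeparable Z L := by
      by_contra hcon
      have h1 := LinearMap.congr_fun (Algebra.trace_eq_zero_of_not_isSeparable hcon) (1 : L)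
      rw [LinearMap.zero_apply, ← map_one (algebraMap Z L), Algebra.trace_algebraMap, hL,
        nsmul_eq_mul, mul_one] at h1
      exact hdZ h1
    obtain ⟨N, _, _, _, _, _, hNsep, E, L', Zc, hcop, hL', hmem, hZL, hZg, hZ, hlift⟩ :=
      exists_cyclic_sep (F := Z) (L := L) hp hL
    let _ : Algebra k N := Algebra.compHom N (algebraMap k Z)
    have hkZN : IsScalarTower k Z N := IsScalarTower.of_algebraMap_eq fun x => rfl
    have hkLN : IsScalarTower k L N := IsScalarTower.of_algebraMap_eq fun x => by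
      rw [IsScalarTower.algebraMap_apply k Z L, ← IsScalarTower.algebraMap_apply Z L N]
      rfl
    have hkZE : IsScalarTower k Z E := IsScalarTower.of_algebraMap_eq fun x => rfl
    have hkEN : IsScalarTower k E N := IsScalarTower.of_algebraMap_eq fun x => rfl
    have hkEL : IsScalarTower k E L' := IsScalarTower.of_algebraMap_eq fun x => rfl
    have hkEZ : IsScalarTower k E Zc := IsScalarTower.of_algebraMap_eq fun x => rfl
    have hfE : FiniteDimensional k E := Module.Finite.trans Z E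
    have hfZc : FiniteDimensional k Zc := Module.Finite.trans E Zc
    have hiZ : Infinite Z := Infinite.of_injective _ (algebraMap k Z).injective
    have hiE : Infinite E := Infinite.of_injective _ (algebraMap k E).injective
    have hsE : Algebra.IsSeparable k E := Algebra.IsSeparable.trans k Z E
    have hsZc : Algebra.IsSeparable k Zc := Algebra.IsSeparable.trans k E Zc
    obtain ⟨D', _, _, _, _, ψ, hD'⟩ := exists_coprime' hp hC E hcop
    let _ : Algebra k D' := Algebra.compHom D' (algebraMap k E)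
    have hkED : IsScalarTower k E D' := IsScalarTower.of_algebraMap_eq fun x => rfl
    let ι : C →+* D' := (ψ : E ⊗[Z] C →+* D').comp
      (Algebra.TensorProduct.includeRight : C →ₐ[Z] E ⊗[Z] C).toRingHom
    have hι : ∀ x : C, ι x = ψ (1 ⊗ₜ x) := fun x => rfl
    have hιF : ∀ x : Z, ι (algebraMap Z C x) = algebraMap E D' (algebraMap Z E x) := by
      intro x
      have h2 : (1 : E) ⊗ₜ[Z] (algebraMap Z C x) = (algebraMap Z E x) ⊗ₜ[Z] (1 : C) := by
        rw [Algebra.algebraMap_eq_smul_one, Algebra.algebraMap_eq_smul_one,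
          TensorProduct.tmul_smul, TensorProduct.smul_tmul']
      rw [hι, ← ψ.commutes, Algebra.TensorProduct.algebraMap_apply, h2]
      rfl
    have hιn : ∀ (x : C) (y : Z), HasNrd Z (p ^ (e + 1)) x y →
        HasNrd E (p ^ (e + 1)) (ι x) (algebraMap Z E y) := by
      intro x y hxy Ω _ _ f
      let _ : Algebra Z Ω := ((algebraMap E Ω).comp (algebraMap Z E)).toAlgebra
      let f' : C →ₐ[Z] Matrix (Fin (p ^ (e + 1))) (Fin (p ^ (e + 1))) Ω :=
        { (f : D' →+* Matrix (Fin (p ^ (e + 1))) (Fin (p ^ (e + 1))) Ω).comp ι with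
          commutes' := fun c => by
            change f (ι (algebraMap Z C c)) = _
            rw [hιF, f.commutes]
            rfl }
      exact hxy Ω f'
    obtain ⟨F1, hF1, hF1ι⟩ := hBase Z C E F hF
    let ψk : D' →ₐ[k] E ⊗[Z] C := (ψ.symm : D' →ₐ[E] E ⊗[Z] C).restrictScalars k
    have hF2 : Good k fun x => F1 (ψk x) := hF1.comp ψk
    obtain ⟨j, hj⟩ := hlift D' (ι.comp (j0 : L →+* C)) (fun x => by
      rw [RingHom.comp_apply]
      change ι (j0 (algebraMap Z L x)) = _
      rw [j0.commutes, hιF])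
    let _ : Algebra Zc L' := (IntermediateField.inclusion hZL).toRingHom.toAlgebra
    have : IsScalarTower E Zc L' := IsScalarTower.of_algebraMap_eq fun x =>
      ((IntermediateField.inclusion hZL).commutes x).symm
    have h1 := step_two k hConj hp hp2 (m' := m') hD' hL' j hZ
      (fun C' _ _ _ _ _ _ hC' V hV => hNS Zc C' _ hC' V hV)
      (fun C' _ _ _ _ _ _ hC' F' hF' => ih Zc C' hC' F' hF') (fun x => F1 (ψk x)) hF2
    -- back to `L`
    let i : L →ₐ[k] L' :=
      { toFun := fun l => ⟨algebraMap L N l, hmem l⟩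
        map_one' := Subtype.ext (map_one _)
        map_mul' := fun x y => Subtype.ext (map_mul _ _ _)
        map_zero' := Subtype.ext (map_zero _)
        map_add' := fun x y => Subtype.ext (map_add _ _ _)
        commutes' := fun x => Subtype.ext (by
          change algebraMap L N (algebraMap k L x) = algebraMap k N x
          rw [← IsScalarTower.algebraMap_apply k L N]) }
    have hi : ∀ l, j (i l) = ι (j0 l) := fun l => hj l (hmem l)
    have h2 := (nb_alg k i).eventually h1
    have h3 := (nb_alg k (j0.restrictScalars k)).eventually hF1ι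
    filter_upwards [h2, h3] with u h4 h5 hu
    have h6 : Algebra.norm E (i u) = 1 := by
      have h7 := hasNrd_norm hD' hL' j (i u)
      rw [hi] at h7
      have h8 := hιn _ _ (hasNrd_norm hC hL j0 u)
      rw [hu, map_one] at h8
      exact HasNrd.unique hD' h7 h8
    have h9 := h4 h6
    have h10 : ψk (j (i u)) = 1 ⊗ₜ (j0 u) := by
      rw [hi, hι]
      exact ψ.symm_apply_apply _
    have h11 : F1 (1 ⊗ₜ (j0 u)) = finrank Z E • F (j0 u) := h5
    change m' • F1 (ψk (j (i u))) = 0 at h9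
    rw [h10, h11] at h9
    have h12 : finrank Z E • (m' • F (j0 u)) = 0 := by rw [smul_comm]; exact h9
    have h13 : p ^ a • (m' • F (j0 u)) = 0 := by rw [smul_smul, ← hM]; exact hMA _
    have h14 : (Nat.gcd (finrank Z E) (p ^ a)) • (m' • F (j0 u)) = 0 :=
      addOrderOf_dvd_iff_nsmul_eq_zero.mp (Nat.dvd_gcd
        (addOrderOf_dvd_of_nsmul_eq_zero h12) (addOrderOf_dvd_of_nsmul_eq_zero h13))
    rwa [(Nat.Coprime.pow_right a hcop).gcd_eq_one, one_smul] at h14

end

theorem rwkn (hA : RAM) (hS : NSUR) : P011UW3.RWKon fun k _ => NumberField k := by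
  intro k D _ _ _ _ n N h hk T hT A _ M hM hMA F hF
  classical
  haveI := h.central
  choose g hg using fun v : H738.Place k => H973.Full.exists_eq_plHos v
  let S : Finset (Pl k) := T.image fun v => Sum.inl (g v)
  haveI : Nonempty S := (hT.image _).to_subtype
  have h1 : ∀ p ∈ S, ∃ v : HeightOneSpectrum (𝓞 k), p = Sum.inl v := fun p hp => by
    obtain ⟨v, -, rfl⟩ := Finset.mem_image.1 hp
    exact ⟨_, rfl⟩
  have h2 : ∀ (v : H738.Place k) x, v.abv x = plAbv (Sum.inl (g v)) x := fun v x =>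
    congrArg (fun w : H738.Place k => w.abv x) (hg v)
  have h3 : nT T D = (letI := topk (av S); nb k D) := by
    ext V
    refine Iff.trans ?_ (eventually_nb_iff (finBasis k D) (av S) (P := fun x => x ∈ V)).symm
    refine exists_congr fun ε => and_congr_right fun _ => forall_congr' fun x =>
      imp_congr_left ⟨fun e p j => ?_, fun e v hv j => ?_⟩
    · obtain ⟨_, hp⟩ := p
      obtain ⟨v, hv, rfl⟩ := Finset.mem_image.1 hp
      exact (h2 v _).symm.trans_lt (e v hv j)
    · exact (h2 v _).trans_lt (e ⟨_, Finset.mem_image_of_mem _ hv⟩ j)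
  rw [h3] at hF ⊢
  letI := topk (av S)
  haveI := topk_isTopologicalDivisionRing (av S)
  haveI := topk_t2 (av S)
  have hMk : (M : k) ≠ 0 := Nat.cast_ne_zero.2 hM
  have hc := H612.Germ.conjP_nf S A
  have hb := H605.Odd.baseP k A
  have hr := H996.Odd.rootP_tad (av S) (H612.Germ.tad_nf S h1) hMk
  refine (H275.GW8.rw_sep_of hM hMA (fun p a m hp e _ i => ?_) (H612.Germ.conjM_nf S A) hb
    (K := k) h.rank hF).mono fun x h4 h5 => h4 (h5 ▸ h.nrd x)
  rcases hp.eq_two_or_odd' with h4 | h4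
  · exact sk1_two k hc hb hMA hMk hr hp h4 (nsp_nf hA hS S h1) e i
  · exact sk1_sep k hc hb hMA hMk hr hp ((H454.GW.nSurNear_nf S h1).toP h4) e i

end Vale.Agent.P011UE
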