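import Vale.Agent.P011UE.Glue
import Vale.Agent.P011UE.Ram
import Vale.Agent.P011UE.RwN
import Vale.Agent.P011UM.Main
import Vale.Agent.P011UN.Nem
import Vale.Agent.P011UN.Nst
import Vale.Agent.P011UL.Main

/-!
The Margulis-Platonov conjecture for `SL_1(D)`.
-/

namespace Vale.Agent.P011UE

theorem nst : NST := P011UN.nst ram

theorem dens : DENS := P011UM.dens nst

theorem nsur : NSUR := P011UZ2.nsur ram (P011UZ.atl P011UT.tn2)

theorem rwk : RWK := P011UW3.rwk_of (rwkn ram nsur)

theorem core' : CORE := core rwk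

theorem mpd : MPD :=
  mpd_of ram nst (P011UM.denc nst) dens (P011UM.splq nst ram) (P011UL.rss_of (P011UN.nem ram)) rwk

end Vale.Agent.P011UE
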