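import Vale.Agent.P011UE.Core
import Vale.Agent.P011.H454.GW.NSur
import Vale.Agent.P011.H973.Full.PlaceNF
import Vale.Agent.P011.H73.Sp1

/-!
Reduced norms near one with the sign condition, for every finite set of places of a number field.
-/

open Module Filter Topology NumberField IsDedekindDomain

set_option linter.style.haveILetI false

namespace Vale.Agent.P011UE

open Vale.Agent.P011.H738 (Place)
open Vale.Agent.P011.W (HasNrd Spl)
open Vale.Agent.P011.H308 (plHos)
open Vale.Agent.P011.H973.Full (plHos_injective exists_eq_plHos)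
open Vale.Agent.P011.Arith (Pl plAbv)
open Vale.Agent.P011.H775.Top (av topk)
open Vale.Agent.P011.H677.GW (nb)
open Vale.Agent.P011

section

variable {k : Type} [Field k] {D : Type} [DivisionRing D] [Algebra k D] [FiniteDimensional k D]
  {n : ℕ} {N : D →* k} {T : Finset (Place k)} {v : Place k}

theorem tendsto_aff (y : D) : Tendsto (fun a : k => y + a • (1 - y)) (nT T k) (nT T D) :=
  tendsto_of <| by
    intro _
    have h := tendsto_alg (D := D) (T := T)
    rw [nT_eq (D := D)] at *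
    letI := tT T D
    haveI := tT_ring (D := D) T
    simpa [Algebra.smul_def] using (h.mul_const (1 - y)).const_add y

/-- Weak approximation for the units. -/
theorem wa_unit (hv : v ∉ T) (x : Dˣ) {O O' : Set Dˣ} (hO : O ∈ nU T D) (hO' : O' ∈ nU {v} D) :
    ∃ t ∈ O, x⁻¹ * t ∈ O' := by
  classical
  obtain ⟨ε, hε, h1⟩ := mem_nT_base.1 (tendsto_aff (x : D) (eventually_comap.1 hO))
  obtain ⟨ε', hε', h2⟩ := mem_nT_base.1
    (tendsto_aff ((x⁻¹ : Dˣ) : D) (ev_unit (Finset.singleton_nonempty v) hO'))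
  obtain ⟨c, hc⟩ := H73.Sp.approx_set (insert v T).finite_toSet (fun w => if w = v then 1 else 0)
    (fun _ => min ε ε') fun _ => lt_min hε hε'
  obtain ⟨u, h3, h4⟩ := h2 c fun w hw => by
    rw [Finset.mem_singleton.1 hw]
    simpa using (hc v (by simp)).trans_le (min_le_right _ _)
  refine ⟨x * u, h1 (1 - c) (fun w hw => ?_) _ ?_, by rwa [inv_mul_cancel_left]⟩
  · have := (hc w (by simp [hw])).trans_le (min_le_left _ _)
    rw [if_neg (ne_of_mem_of_not_mem hw hv)] at this
    simpa using this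
  · rw [Units.val_mul, h3, mul_add, mul_smul_comm, mul_sub, Units.mul_inv, mul_one]
    module

/-- The elements near one with the right signs are norms of elements near one. -/
def NS (N : D →* k) (n : ℕ) (T : Finset (Place k)) : Prop := ∀ O ∈ nU T D, ∀ᶠ x in nT T k,
  x ≠ 0 → (∀ φ : k →+* ℝ, Spl D n φ ∨ 0 < φ x) → ∃ u ∈ O, N u = x

open scoped Classical in
theorem NS.remove (h : Dv k D n N) (hv : v ∉ T) (h1 : NS N n (insert v T))
    (h2 : ∀ b : k, b ≠ 0 → ∀ V ∈ nT {v} k, ∃ x : Dˣ, b * (N x)⁻¹ ∈ V) : NS N n T := by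
  intro O hO
  obtain ⟨U, hU, h3⟩ := exists_sub hO
  have h4 := h1 U (nU_mono (Finset.subset_insert v T) hU)
  rw [Finset.insert_eq, nT_union, eventually_inf] at h4
  obtain ⟨V, hV, V', hV', h4⟩ := h4
  have t : ∀ S : Finset (Place k), Tendsto (fun p : k × Dˣ => p.1 * (N p.2)⁻¹)
      (nT S k ×ˢ nU S D) (nT S k) := fun S =>
    nT_mul tendsto_fst (nT_inv (((h.tendsto S).comp (tendsto_val S)).comp tendsto_snd))
  obtain ⟨A, hA, B, hB, h5⟩ := mem_prod_iff.1 (t _ hV)
  obtain ⟨A', hA', B', hB', h6⟩ := mem_prod_iff.1 (t _ hV')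
  filter_upwards [hA'] with x hx h7 h8
  obtain ⟨y, hy⟩ := h2 x h7 A hA
  obtain ⟨s, hs, h9⟩ := wa_unit hv y (inter_mem hU hB') hB
  have h10 : x * (N y)⁻¹ * (N (y⁻¹ * s : Dˣ))⁻¹ = x * (N s)⁻¹ := by
    rw [mul_assoc, ← mul_inv, ← map_mul, ← Units.val_mul, mul_inv_cancel_left]
  have h11 : x * (N y)⁻¹ * (N (y⁻¹ * s : Dˣ))⁻¹ ∈ V := h5 (Set.mk_mem_prod hy h9)
  rw [h10] at h11
  obtain ⟨u, hu, e⟩ := h4 _ ⟨h11, h6 (Set.mk_mem_prod hx hs.2)⟩
    (mul_ne_zero h7 (inv_ne_zero (Dv.ne_zero s))) fun φ => (h8 φ).elim Or.inl fun e =>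
      (h.pos s φ).imp_right fun e' => by rw [map_mul, map_inv₀]; positivity
  refine ⟨u * s, h3 _ (U.mul_mem hu hs.1), ?_⟩
  rw [Units.val_mul, map_mul, e, inv_mul_cancel_right₀ (Dv.ne_zero s)]

theorem ns_nf [NumberField k] (hA : RAM) (hS : NSUR) (h : Dv k D n N) (hT : T.Nonempty) :
    NS N n T := by
  classical
  obtain ⟨h1, -⟩ := hA k D n N h
  have := h.central
  have h2 : ∀ R : Finset (Place k), NS N n (T ∪ R) → NS N n T := fun R => by
    induction R using Finset.induction_on with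
    | empty => rw [Finset.union_empty]; exact id
    | insert v R _ ih =>
      rw [Finset.union_insert]
      intro h3
      by_cases hv : v ∈ T ∪ R
      · exact ih (by rwa [Finset.insert_eq_of_mem hv] at h3)
      refine ih (h3.remove h hv fun b hb V hV => ?_)
      obtain ⟨w, rfl⟩ := exists_eq_plHos v
      obtain ⟨ε, hε, h4⟩ := mem_nT_base.1 ((nT_inv tendsto_id).eventually hV |>.and
        (ev_ne (Finset.singleton_nonempty _) (zero_ne_one (α := k))))
      have h5 := (plHos k w).abv.pos hb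
      obtain ⟨x, ν, h6, h7⟩ := H454.GW.hloc_nf h.rank w hb (mul_pos hε h5)
      obtain rfl := (h.nrd x).unique h.rank h6
      obtain ⟨h8, h9⟩ := h4 (N x / b) fun u hu => by
        rw [Finset.mem_singleton.1 hu, div_sub_one hb, map_div₀, div_lt_iff₀ h5]
        exact h7
      rw [id, inv_div, div_eq_mul_inv] at h8
      refine ⟨Units.mk0 x fun e => h9 ?_, h8⟩
      rw [e, ← map_zero (algebraMap k D), h.alg, zero_pow (zero_lt_two.trans_le h.le).ne', zero_div]
  exact h2 h1.toFinset (hS k D n N h _ (hT.mono Finset.subset_union_left)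
    fun v hv => by_contra fun e => hv (by simp [e]))

end

/-- Reduced norms near one with the sign condition. -/
def NSP (k : Type) [Field k] [TopologicalSpace k] : Prop :=
  ∀ (Z : Type) [Field Z] [Algebra k Z] [FiniteDimensional k Z] (C : Type) [DivisionRing C]
    [Algebra Z C] [Algebra k C] [IsScalarTower k Z C] [FiniteDimensional Z C]
    [Algebra.IsCentral Z C] (d : ℕ), finrank Z C = d ^ 2 → ∀ V ∈ nb k C,
      ∀ᶠ b in nb k Z, (∀ ψ : Z →+* ℝ, Spl C d ψ ∨ 0 < ψ b) → ∃ t ∈ V, HasNrd Z d t b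

theorem nsp_nf (hA : RAM) (hS : NSUR) {k : Type} [Field k] [NumberField k] (T : Finset (Pl k))
    [Nonempty T] (hT : ∀ p ∈ T, ∃ v : HeightOneSpectrum (𝓞 k), p = Sum.inl v) :
    letI := topk (av T)
    NSP k := by
  letI := topk (av T)
  haveI := H775.Top.topk_isTopologicalDivisionRing (av T)
  haveI := H775.Top.topk_t2 (av T)
  classical
  intro Z _ _ _ C _ _ _ _ _ _ d hC V hV
  have hZ : NumberField Z := NumberField.of_module_finite k Z
  obtain rfl | hd := (Nat.succ_le_of_lt (W.deg_pos hC)).eq_or_lt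
  · filter_upwards [H677.GW.nb_alg k (IsScalarTower.toAlgHom k Z C) hV] with b hb _
    exact ⟨_, hb, by simpa using W.HasNrd.algMap (D := C) (d := 1) b⟩
  obtain ⟨N, -, hN⟩ := H673.NS.exists_rnN hC
  have h : Dv Z C d N := ⟨Or.inl hZ, inferInstance, hd, hC, hN⟩
  obtain ⟨γ, hγ0, hγ1, hγ⟩ := H454.GW.exists_gamma (finBasis Z C) T hT hV
  have hfin := H454.GW.abv_finite (k := k) (Z := Z) T
  let S := hfin.toFinset.image fun w => plHos Z w
  have hS1 : ∀ w ∈ H454.GW.abv T Z, plHos Z w ∈ S := fun w hw =>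
    Finset.mem_image_of_mem (fun w => plHos Z w) (hfin.mem_toFinset.2 hw)
  have hne : S.Nonempty := by
    obtain ⟨p, hp⟩ := ‹Nonempty T›
    obtain ⟨v, rfl⟩ := hT p hp
    obtain ⟨w, hw⟩ := Arith.exists_above (E := Z) v
    exact ⟨_, hS1 w ⟨v, hp, hw⟩⟩
  have h1 : V ∈ nT S C := by
    choose r hr hr2 using fun w : HeightOneSpectrum (𝓞 Z) => Pow.exists_delta w hγ0
    refine mem_of_superset ((eventually_all_finite hfin (p := fun w x => ∀ l,
      w.valuation Z ((finBasis Z C).repr (x - 1) l) < γ)).2 fun w hw => ?_) hγ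
    exact ⟨r w, hr w, fun x hx l => hr2 w _ (hx _ (hS1 w hw) l)⟩
  obtain ⟨δ, hδ, h2⟩ := mem_nT_base.1 ((ns_nf hA hS h hne _ (tendsto_val S h1)).and
    (ev_ne hne (zero_ne_one (α := Z))))
  choose c hc using fun w : HeightOneSpectrum (𝓞 Z) => H454.GW.exists_unit_abv w hδ
  obtain ⟨γ', hγ'0, -, hγ'⟩ := H454.GW.exists_le_all hfin (fun w => w.valuation Z (c w : Z))
    (fun w _ => (Valuation.ne_zero_iff _).mpr (c w).ne_zero)
  filter_upwards [H454.GW.eventually_val (Z := Z) T hγ'0] with b hb h3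
  obtain ⟨h4, h5⟩ := h2 b fun v hv => by
    obtain ⟨w, hw, rfl⟩ := Finset.mem_image.1 hv
    have hw' := hfin.mem_toFinset.1 hw
    exact hc w _ ((hb w hw').trans_le (hγ' w hw'))
  obtain ⟨u, hu, e⟩ := h4 h5 h3
  exact ⟨u, hu, e ▸ hN u⟩

end Vale.Agent.P011UE
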